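import Mathlib

/-! Part F of the bulk universality proof: symmetric unitary matrices and their invariant laws. -/

open Matrix MeasureTheory Topology
open scoped ComplexConjugate

namespace Vale.Agent.P156.F

/-- The set of symmetric unitary matrices. -/
def symU (ι : Type) [Fintype ι] [DecidableEq ι] : Set (Matrix ι ι ℂ) :=
  {S | S ∈ unitaryGroup ι ℂ ∧ Sᵀ = S}

/-- The space of symmetric unitary matrices. -/
abbrev SymU (ι : Type) [Fintype ι] [DecidableEq ι] : Type := ↥(symU ι)

variable {ι κ : Type} [Fintype ι] [DecidableEq ι] [Fintype κ] [DecidableEq κ]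

theorem mem_symU {S : Matrix ι ι ℂ} : S ∈ symU ι ↔ S ∈ unitaryGroup ι ℂ ∧ Sᵀ = S := Iff.rfl

instance : SecondCountableTopology (Matrix ι ι ℂ) :=
  inferInstanceAs (SecondCountableTopology (ι → ι → ℂ))

theorem isCompact_bdd : IsCompact {S : Matrix ι ι ℂ | ∀ i j, ‖S i j‖ ≤ 1} := by
  have hK : IsCompact (Set.pi Set.univ
      (fun _ : ι => Set.pi Set.univ (fun _ : ι => Metric.closedBall (0 : ℂ) 1))) :=
    isCompact_univ_pi fun _ => isCompact_univ_pi fun _ => isCompact_closedBall 0 1
  have h : (Set.pi Set.univ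
      (fun _ : ι => Set.pi Set.univ (fun _ : ι => Metric.closedBall (0 : ℂ) 1))) =
      {S : ι → ι → ℂ | ∀ i j, ‖S i j‖ ≤ 1} := by
    ext S
    simp
  rw [h] at hK
  exact hK

theorem isClosed_unitaryGroup : IsClosed {S : Matrix ι ι ℂ | S ∈ unitaryGroup ι ℂ} := by
  have h : {S : Matrix ι ι ℂ | S ∈ unitaryGroup ι ℂ} = {S | S * star S = 1} := by
    ext S
    simp only [Set.mem_ofPred_eq, mem_unitaryGroup_iff]
  rw [h]
  exact isClosed_eq (continuous_id.mul continuous_star) continuous_const

theorem isCompact_unitaryGroup : IsCompact {S : Matrix ι ι ℂ | S ∈ unitaryGroup ι ℂ} :=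
  isCompact_bdd.of_isClosed_subset isClosed_unitaryGroup fun _ hS i j =>
    entry_norm_bound_of_unitary hS i j

theorem isClosed_symU : IsClosed (symU ι) := by
  have h : symU ι = {S : Matrix ι ι ℂ | S ∈ unitaryGroup ι ℂ} ∩ {S | Sᵀ = S} := rfl
  rw [h]
  refine isClosed_unitaryGroup.inter (isClosed_eq ?_ continuous_id)
  exact continuous_id.matrix_transpose

theorem isCompact_symU : IsCompact (symU ι) :=
  isCompact_unitaryGroup.of_isClosed_subset isClosed_symU fun _ hS => hS.1

noncomputable section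

instance : CompactSpace (SymU ι) := isCompact_iff_compactSpace.mp isCompact_symU

instance : MeasurableSpace (SymU ι) := borel _
instance : BorelSpace (SymU ι) := ⟨rfl⟩

instance : CompactSpace (unitaryGroup ι ℂ) :=
  isCompact_iff_compactSpace.mp isCompact_unitaryGroup

instance : MeasurableSpace (unitaryGroup ι ℂ) := borel _
instance : BorelSpace (unitaryGroup ι ℂ) := ⟨rfl⟩
instance : SecondCountableTopology (unitaryGroup ι ℂ) :=
  TopologicalSpace.Subtype.secondCountableTopology _

/-! ### The action of the unitary group -/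

theorem transpose_mem_unitaryGroup {U : Matrix ι ι ℂ} (hU : U ∈ unitaryGroup ι ℂ) :
    Uᵀ ∈ unitaryGroup ι ℂ := by
  rw [mem_unitaryGroup_iff', star_eq_conjTranspose]
  have h := mem_unitaryGroup_iff.mp hU
  rw [star_eq_conjTranspose] at h
  have h2 : (U * Uᴴ)ᵀ = 1 := by rw [h, transpose_one]
  rw [transpose_mul] at h2
  rw [show (Uᵀ)ᴴ = (Uᴴ)ᵀ from rfl]
  exact h2

theorem conj_mem_symU {U S : Matrix ι ι ℂ} (hU : U ∈ unitaryGroup ι ℂ) (hS : S ∈ symU ι) :
    U * S * Uᵀ ∈ symU ι := by
  refine ⟨mul_mem (mul_mem hU hS.1) (transpose_mem_unitaryGroup hU), ?_⟩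
  rw [transpose_mul, transpose_mul, transpose_transpose, hS.2, Matrix.mul_assoc]

instance : MulAction (unitaryGroup ι ℂ) (SymU ι) where
  smul U S := ⟨U.1 * S.1 * U.1ᵀ, conj_mem_symU U.2 S.2⟩
  one_smul S := by
    apply Subtype.ext
    change (1 : Matrix ι ι ℂ) * S.1 * (1 : Matrix ι ι ℂ)ᵀ = S.1
    rw [Matrix.one_mul, transpose_one, Matrix.mul_one]
  mul_smul U V S := by
    apply Subtype.ext
    change (U.1 * V.1) * S.1 * (U.1 * V.1)ᵀ = U.1 * (V.1 * S.1 * V.1ᵀ) * U.1ᵀ
    rw [transpose_mul]
    simp only [Matrix.mul_assoc]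

theorem coe_smul (U : unitaryGroup ι ℂ) (S : SymU ι) : ((U • S : SymU ι) : Matrix ι ι ℂ) =
    U.1 * S.1 * U.1ᵀ := rfl

theorem continuous_smul_pair :
    Continuous (fun p : unitaryGroup ι ℂ × SymU ι => p.1 • p.2) := by
  refine Continuous.subtype_mk ?_ _
  have h1 : Continuous (fun p : unitaryGroup ι ℂ × SymU ι => p.1.1) :=
    continuous_subtype_val.comp continuous_fst
  have h2 : Continuous (fun p : unitaryGroup ι ℂ × SymU ι => p.2.1) :=
    continuous_subtype_val.comp continuous_snd
  exact (h1.mul h2).mul h1.matrix_transpose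

instance : ContinuousSMul (unitaryGroup ι ℂ) (SymU ι) := ⟨continuous_smul_pair⟩

theorem measurable_smul (U : unitaryGroup ι ℂ) : Measurable (fun S : SymU ι => U • S) :=
  (continuous_const_smul U).measurable

/-- Invariance of a law under one unitary matrix. -/
def InvBy (μ : Measure (SymU ι)) (U : unitaryGroup ι ℂ) : Prop :=
  μ.map (fun S => U • S) = μ

theorem InvBy.mul {μ : Measure (SymU ι)} {U V : unitaryGroup ι ℂ} (hU : InvBy μ U)
    (hV : InvBy μ V) : InvBy μ (U * V) := by
  unfold InvBy at *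
  have h : (fun S : SymU ι => (U * V) • S) = (fun S => U • S) ∘ (fun S => V • S) := by
    ext1 S
    exact mul_smul U V S
  rw [h, ← Measure.map_map (measurable_smul U) (measurable_smul V), hV, hU]

/-- Real orthogonal matrices, as unitary matrices. -/
def IsReal (U : unitaryGroup ι ℂ) : Prop := ∀ i j, (U.1 i j).im = 0

/-- Invariance under the orthogonal group. -/
def OInv (μ : Measure (SymU ι)) : Prop := ∀ U : unitaryGroup ι ℂ, IsReal U → InvBy μ U

/-- Invariance under the diagonal unitary matrices of determinant one. -/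
def DInv (μ : Measure (SymU ι)) : Prop :=
  ∀ U : unitaryGroup ι ℂ, U.1.IsDiag → U.1.det = 1 → InvBy μ U

/-- Invariance under the special unitary group. -/
def SUInv (μ : Measure (SymU ι)) : Prop :=
  ∀ U : unitaryGroup ι ℂ, U.1.det = 1 → InvBy μ U

theorem InvBy.integral {μ : Measure (SymU ι)} {U : unitaryGroup ι ℂ} (h : InvBy μ U)
    {E : Type*} [NormedAddCommGroup E] [NormedSpace ℝ E] {f : SymU ι → E} (hf : Continuous f) :
    ∫ S, f (U • S) ∂μ = ∫ S, f S ∂μ := by
  conv_rhs => rw [← h]
  rw [integral_map (measurable_smul U).aemeasurable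
    (hf.stronglyMeasurable_of_hasCompactSupport
      (HasCompactSupport.of_compactSpace f)).aestronglyMeasurable]

end

end Vale.Agent.P156.F
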