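import Vale.Agent.P156.F.Basic

/-! Closing a channel of a symmetric unitary matrix (A5). -/

open Matrix MeasureTheory Topology
open scoped ComplexConjugate

namespace Vale.Agent.P156.F

/-- Closing channel `0` with phase `ν`, on the level of matrices. -/
noncomputable def closM {t : ℕ} (ν : ℂ) (S : Matrix (Fin (t + 1)) (Fin (t + 1)) ℂ) :
    Matrix (Fin t) (Fin t) ℂ :=
  fun i j => S i.succ j.succ + S i.succ 0 * (ν⁻¹ - S 0 0)⁻¹ * S 0 j.succ

theorem closM_apply {t : ℕ} (ν : ℂ) (S : Matrix (Fin (t + 1)) (Fin (t + 1)) ℂ) (i j : Fin t) :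
    closM ν S i j = S i.succ j.succ + S i.succ 0 * (ν⁻¹ - S 0 0)⁻¹ * S 0 j.succ := rfl

theorem closM_mem {t : ℕ} {ν : ℂ} (hν : ‖ν‖ = 1) {S : Matrix (Fin (t + 1)) (Fin (t + 1)) ℂ}
    (hS : S ∈ symU (Fin (t + 1))) (h0 : S 0 0 ≠ ν⁻¹) : closM ν S ∈ symU (Fin t) := by
  have hν0 : ν ≠ 0 := by
    intro h
    rw [h, norm_zero] at hν
    exact zero_ne_one hν
  have hc : ν⁻¹ - S 0 0 ≠ 0 := sub_ne_zero.mpr (Ne.symm h0)
  have hsym : ∀ i j, S j i = S i j := fun i j => congrFun (congrFun hS.2 i) j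
  refine ⟨?_, ?_⟩
  · -- the isometry property
    rw [mem_unitaryGroup_iff']
    have hSS : star S * S = 1 := mem_unitaryGroup_iff'.mp hS.1
    have horth : ∀ a b, ∑ k, conj (S k a) * S k b = if a = b then 1 else 0 := by
      intro a b
      have h := congrFun (congrFun hSS a) b
      rw [mul_apply, one_apply] at h
      rw [← h]
      rfl
    set a : Fin t → ℂ := fun j => (ν⁻¹ - S 0 0)⁻¹ * S 0 j.succ with ha
    have hrow : ∀ j, S 0 0 * a j + S 0 j.succ = ν⁻¹ * a j := by
      intro j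
      have : (ν⁻¹ - S 0 0) * a j = S 0 j.succ := by
        simp only [ha]
        rw [← mul_assoc, mul_inv_cancel₀ hc, one_mul]
      linear_combination -this
    have hcl : ∀ i j, closM ν S i j = S i.succ 0 * a j + S i.succ j.succ := by
      intro i j
      rw [closM_apply]
      simp only [ha]
      ring
    have hνν : conj (ν⁻¹) * ν⁻¹ = 1 := by
      rw [mul_comm, Complex.mul_conj, Complex.normSq_eq_norm_sq, norm_inv, hν]
      simp
    ext i j
    rw [mul_apply]
    have h1 : ∀ k, (star (closM ν S)) i k * closM ν S k j =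
        conj (S k.succ 0 * a i + S k.succ i.succ) * (S k.succ 0 * a j + S k.succ j.succ) := by
      intro k
      rw [star_apply, hcl, hcl]
      rfl
    simp only [h1]
    have h2 : ∑ k : Fin (t + 1), conj (S k 0 * a i + S k i.succ) * (S k 0 * a j + S k j.succ) =
        conj (a i) * a j * (∑ k, conj (S k 0) * S k 0) + conj (a i) * (∑ k, conj (S k 0) * S k j.succ)
        + a j * (∑ k, conj (S k i.succ) * S k 0) + ∑ k, conj (S k i.succ) * S k j.succ := by
      simp only [Finset.mul_sum, ← Finset.sum_add_distrib]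
      refine Finset.sum_congr rfl fun k _ => ?_
      simp only [map_add, map_mul]
      ring
    rw [horth, horth, horth, horth, Fin.sum_univ_succ] at h2
    rw [hrow i, hrow j] at h2
    have h3 : conj (ν⁻¹ * a i) * (ν⁻¹ * a j) = conj (a i) * a j := by
      rw [map_mul]
      linear_combination (conj (a i) * a j) * hνν
    rw [h3] at h2
    rw [one_apply]
    have e1 : ((0 : Fin (t + 1)) = 0) := rfl
    have e2 : ¬ ((0 : Fin (t + 1)) = j.succ) := (Fin.succ_ne_zero j).symm
    have e3 : ¬ (i.succ = (0 : Fin (t + 1))) := Fin.succ_ne_zero i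
    rw [if_pos e1, if_neg e2, if_neg e3] at h2
    have e4 : (if i.succ = j.succ then (1 : ℂ) else 0) = if i = j then 1 else 0 := by
      simp only [Fin.succ_inj]
    rw [e4] at h2
    linear_combination h2
  · ext i j
    rw [transpose_apply, closM_apply, closM_apply, hsym i.succ j.succ, hsym 0 j.succ,
      hsym i.succ 0]
    ring

open Classical in
/-- Closing channel `0` with phase `ν` (junk value `1` if the closing is singular). -/
noncomputable def clos {t : ℕ} (ν : ℂ) (S : SymU (Fin (t + 1))) : SymU (Fin t) :=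
  if h : ‖ν‖ = 1 ∧ S.1 0 0 ≠ ν⁻¹ then ⟨closM ν S.1, closM_mem h.1 S.2 h.2⟩
  else ⟨1, one_mem _, transpose_one⟩

theorem coe_clos {t : ℕ} {ν : ℂ} (hν : ‖ν‖ = 1) {S : SymU (Fin (t + 1))} (h0 : S.1 0 0 ≠ ν⁻¹) :
    (clos ν S : Matrix (Fin t) (Fin t) ℂ) = closM ν S.1 := by
  rw [clos, dif_pos ⟨hν, h0⟩]

/-- (A5), algebraic form. -/
theorem det_closM_mul {t : ℕ} {ν : ℂ} (S : Matrix (Fin (t + 1)) (Fin (t + 1)) ℂ)
    (h0 : S 0 0 ≠ ν⁻¹) :
    (ν⁻¹ - S 0 0) * (closM ν S).det =
      ν⁻¹ * (S.submatrix Fin.succ Fin.succ).det - S.det := by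
  have hc : ν⁻¹ - S 0 0 ≠ 0 := sub_ne_zero.mpr (Ne.symm h0)
  -- the matrix `A = ν⁻¹ e₀ e₀ᵀ - S` in row `0`, `S` in the other rows
  set r : Fin (t + 1) → ℂ := Pi.single 0 ν⁻¹ with hr
  have h1 : (S.updateRow 0 (r - S 0)).det = (S.updateRow 0 r).det - S.det := by
    have h := det_updateRow_add S 0 (r - S 0) (S 0)
    rw [sub_add_cancel, updateRow_eq_self] at h
    rw [h]
    ring
  have h2 : (S.updateRow 0 r).det = ν⁻¹ * (S.submatrix Fin.succ Fin.succ).det := by
    rw [det_succ_row_zero, Fin.sum_univ_succ]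
    have hz : ∀ j : Fin t, (S.updateRow 0 r) 0 j.succ = 0 := by
      intro j
      rw [updateRow_self, hr, Pi.single_eq_of_ne (Fin.succ_ne_zero j)]
    simp only [hz, mul_zero, zero_mul, Finset.sum_const_zero, add_zero, Fin.val_zero, pow_zero,
      one_mul]
    rw [updateRow_self, hr, Pi.single_eq_same]
    congr 2
  rw [← h2, ← h1]
  -- column operations
  set A := S.updateRow 0 (r - S 0) with hA
  have hA00 : A 0 0 = ν⁻¹ - S 0 0 := by
    rw [hA, updateRow_self, Pi.sub_apply, hr, Pi.single_eq_same]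
  have hA0 : ∀ j : Fin t, A 0 j.succ = - S 0 j.succ := by
    intro j
    rw [hA, updateRow_self, Pi.sub_apply, hr, Pi.single_eq_of_ne (Fin.succ_ne_zero j), zero_sub]
  have hAs : ∀ (i : Fin t) (j : Fin (t + 1)), A i.succ j = S i.succ j := by
    intro i j
    rw [hA, updateRow_ne (Fin.succ_ne_zero i)]
  set T : Matrix (Fin (t + 1)) (Fin (t + 1)) ℂ :=
    (1 : Matrix (Fin (t + 1)) (Fin (t + 1)) ℂ).updateRow 0
      (Fin.cons 1 fun j => (ν⁻¹ - S 0 0)⁻¹ * S 0 j.succ) with hT
  have hTdet : T.det = 1 := by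
    rw [det_succ_column_zero, Fin.sum_univ_succ]
    have hz : ∀ i : Fin t, T i.succ 0 = 0 := by
      intro i
      rw [hT, updateRow_ne (Fin.succ_ne_zero i), one_apply_ne (Fin.succ_ne_zero i)]
    simp only [hz, mul_zero, zero_mul, Finset.sum_const_zero, add_zero, Fin.val_zero, pow_zero,
      one_mul]
    rw [hT, updateRow_self, Fin.cons_zero, one_mul]
    have : ((1 : Matrix (Fin (t + 1)) (Fin (t + 1)) ℂ).updateRow 0
      (Fin.cons 1 fun j => (ν⁻¹ - S 0 0)⁻¹ * S 0 j.succ)).submatrix (Fin.succAbove 0) Fin.succ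
        = (1 : Matrix (Fin t) (Fin t) ℂ) := by
      ext i j
      rw [submatrix_apply, Fin.succAbove_zero, updateRow_ne (Fin.succ_ne_zero i), one_apply,
        one_apply]
      simp only [Fin.succ_inj]
    rw [this, det_one]
  have hATdet : (A * T).det = (ν⁻¹ - S 0 0) * (closM ν S).det := by
    rw [det_succ_row_zero, Fin.sum_univ_succ]
    have hAT : ∀ (i : Fin (t + 1)) (j : Fin t), (A * T) i j.succ =
        A i 0 * ((ν⁻¹ - S 0 0)⁻¹ * S 0 j.succ) + A i j.succ := by
      intro i j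
      rw [mul_apply, Fin.sum_univ_succ, hT, updateRow_self, Fin.cons_succ]
      congr 1
      rw [Finset.sum_eq_single j]
      · rw [updateRow_ne (Fin.succ_ne_zero j), one_apply_eq, mul_one]
      · intro k _ hk
        rw [updateRow_ne (Fin.succ_ne_zero k), one_apply_ne (fun h => hk (Fin.succ_injective _ h)),
          mul_zero]
      · intro h
        exact absurd (Finset.mem_univ j) h
    have hAT0 : (A * T) 0 0 = ν⁻¹ - S 0 0 := by
      rw [mul_apply, Fin.sum_univ_succ, hT, updateRow_self, Fin.cons_zero, mul_one, hA00]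
      have : ∀ k : Fin t, A 0 k.succ * ((1 : Matrix (Fin (t + 1)) (Fin (t + 1)) ℂ).updateRow 0
          (Fin.cons 1 fun j => (ν⁻¹ - S 0 0)⁻¹ * S 0 j.succ)) k.succ 0 = 0 := by
        intro k
        rw [updateRow_ne (Fin.succ_ne_zero k), one_apply_ne (Fin.succ_ne_zero k), mul_zero]
      simp only [this, Finset.sum_const_zero, add_zero]
    have hz : ∀ j : Fin t, (A * T) 0 j.succ = 0 := by
      intro j
      rw [hAT, hA00, hA0, ← mul_assoc, mul_inv_cancel₀ hc]
      ring
    simp only [hz, mul_zero, zero_mul, Finset.sum_const_zero, add_zero, Fin.val_zero, pow_zero,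
      one_mul]
    rw [hAT0]
    congr 2
    ext i j
    rw [submatrix_apply, Fin.succAbove_zero, hAT, hAs, hAs, closM_apply]
    ring
  rw [← hATdet, det_mul, hTdet, mul_one]

/-- the cofactor identity for a unitary matrix. -/
theorem det_submatrix_succ {t : ℕ} {S : Matrix (Fin (t + 1)) (Fin (t + 1)) ℂ}
    (hS : S ∈ unitaryGroup (Fin (t + 1)) ℂ) :
    (S.submatrix Fin.succ Fin.succ).det = S.det * conj (S 0 0) := by
  have h1 : S.adjugate 0 0 = (S.submatrix Fin.succ Fin.succ).det := by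
    rw [adjugate_fin_succ_eq_det_submatrix]
    simp [Fin.succAbove_zero]
  have h2 : S.adjugate = S.det • star S := by
    have h : S * star S = 1 := mem_unitaryGroup_iff.mp hS
    calc S.adjugate = S.adjugate * (S * star S) := by rw [h, Matrix.mul_one]
      _ = (S.adjugate * S) * star S := by rw [Matrix.mul_assoc]
      _ = S.det • star S := by rw [adjugate_mul, Matrix.smul_mul, Matrix.one_mul]
  rw [← h1, h2, Matrix.smul_apply, star_apply, smul_eq_mul]
  rfl

/-- (A5) the determinant after closing a channel. -/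
theorem det_closM {t : ℕ} {ν : ℂ} (hν : ‖ν‖ = 1) {S : Matrix (Fin (t + 1)) (Fin (t + 1)) ℂ}
    (hS : S ∈ unitaryGroup (Fin (t + 1)) ℂ) (h0 : S 0 0 ≠ ν⁻¹) :
    (closM ν S).det = - ν * S.det * ((1 - conj (ν * S 0 0)) / (1 - ν * S 0 0)) := by
  have hν0 : ν ≠ 0 := by
    intro h
    rw [h, norm_zero] at hν
    exact zero_ne_one hν
  have hc : ν⁻¹ - S 0 0 ≠ 0 := sub_ne_zero.mpr (Ne.symm h0)
  have h := det_closM_mul S h0
  rw [det_submatrix_succ hS] at h
  have hc2 : 1 - ν * S 0 0 ≠ 0 := by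
    intro h3
    apply hc
    have : ν * (ν⁻¹ - S 0 0) = 0 := by
      rw [mul_sub, mul_inv_cancel₀ hν0, h3]
    exact (mul_eq_zero.mp this).resolve_left hν0
  have hνc : conj ν = ν⁻¹ := by
    rw [Complex.inv_def, Complex.normSq_eq_norm_sq, hν]
    simp
  rw [map_mul, hνc]
  have h4 : (1 - ν * S 0 0) = ν * (ν⁻¹ - S 0 0) := by
    rw [mul_sub, mul_inv_cancel₀ hν0]
  rw [h4, eq_comm, mul_div_assoc', div_eq_iff (mul_ne_zero hν0 hc)]
  have h5 : (closM ν S).det * (ν * (ν⁻¹ - S 0 0)) = ν * ((ν⁻¹ - S 0 0) * (closM ν S).det) := by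
    ring
  rw [h5, h]
  ring

theorem isOpen_entry_ne (t : ℕ) (c : ℂ) : IsOpen {S : SymU (Fin (t + 1)) | S.1 0 0 ≠ c} := by
  have : Continuous (fun S : SymU (Fin (t + 1)) => S.1 0 0) :=
    (continuous_subtype_val).matrix_elem 0 0
  exact isOpen_compl_singleton.preimage this

theorem continuousOn_clos {t : ℕ} {ν : ℂ} (hν : ‖ν‖ = 1) :
    ContinuousOn (clos ν) {S : SymU (Fin (t + 1)) | S.1 0 0 ≠ ν⁻¹} := by
  rw [continuousOn_iff_continuous_domRestrict]
  have h : ({S : SymU (Fin (t + 1)) | S.1 0 0 ≠ ν⁻¹}.domRestrict (clos ν)) =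
      fun S => ⟨closM ν S.1.1, closM_mem hν S.1.2 S.2⟩ := by
    ext1 S
    apply Subtype.ext
    exact coe_clos hν S.2
  rw [h]
  refine Continuous.subtype_mk ?_ _
  have hval : Continuous (fun S : {S : SymU (Fin (t + 1)) | S.1 0 0 ≠ ν⁻¹} => S.1.1) :=
    continuous_subtype_val.comp continuous_subtype_val
  refine continuous_matrix fun i j => ?_
  simp only [closM_apply]
  refine (hval.matrix_elem _ _).add (((hval.matrix_elem _ _).mul ?_).mul (hval.matrix_elem _ _))
  refine (continuous_const.sub (hval.matrix_elem _ _)).inv₀ fun S => ?_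
  exact sub_ne_zero.mpr (Ne.symm S.2)

theorem measurable_clos {t : ℕ} (ν : ℂ) : Measurable (clos ν : SymU (Fin (t + 1)) → SymU (Fin t)) := by
  classical
  by_cases hν : ‖ν‖ = 1
  · have h := (continuousOn_clos (t := t) hν).measurable_piecewise
      (g := fun _ => ⟨1, one_mem _, transpose_one⟩) continuousOn_const (isOpen_entry_ne t ν⁻¹).measurableSet
    convert h using 1
    ext1 S
    by_cases hS : S.1 0 0 ≠ ν⁻¹
    · rw [Set.piecewise_eq_of_mem _ _ _ hS]
    · rw [Set.piecewise_eq_of_notMem _ _ _ hS, clos, dif_neg (fun h => hS h.2)]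
  · have h : (clos ν : SymU (Fin (t + 1)) → SymU (Fin t)) =
        fun _ => ⟨1, one_mem _, transpose_one⟩ := by
      ext1 S
      rw [clos, dif_neg (fun h => hν h.1)]
    rw [h]
    exact measurable_const

end Vale.Agent.P156.F
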