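import Vale.Agent.P156.F.Basic

/-! A symmetric unitary matrix is diagonalised by a real orthogonal matrix (A6), and the
resulting factorisation of the special unitary group. -/

open Matrix MeasureTheory Topology
open scoped ComplexConjugate

namespace Vale.Agent.P156.F

variable {ι : Type} [Fintype ι] [DecidableEq ι]

open Module.End in
/-- Joint orthonormal eigenbasis of two commuting real symmetric matrices. -/
theorem exists_joint_eigenbasis (A B : Matrix ι ι ℝ) (hA : A.IsHermitian) (hB : B.IsHermitian)
    (hAB : A * B = B * A) :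
    ∃ (v : OrthonormalBasis ι ℝ (EuclideanSpace ℝ ι)) (a b : ι → ℝ),
      (∀ i, toEuclideanLin A (v i) = a i • v i) ∧ (∀ i, toEuclideanLin B (v i) = b i • v i) := by
  classical
  have hTA : (toEuclideanLin A).IsSymmetric := isSymmetric_toEuclideanLin_iff.mpr hA
  have hTB : (toEuclideanLin B).IsSymmetric := isSymmetric_toEuclideanLin_iff.mpr hB
  have hc : Commute (toEuclideanLin A) (toEuclideanLin B) := by
    refine LinearMap.ext fun x => ?_
    change toEuclideanLin A (toEuclideanLin B x) = toEuclideanLin B (toEuclideanLin A x)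
    simp only [toLpLin_apply, mulVec_mulVec, hAB]
  have hint := hTA.directSum_isInternal_of_commute hTB hc
  have horth := hTA.orthogonalFamily_eigenspace_inf_eigenspace hTB
  set W : ℝ × ℝ → Submodule ℝ (EuclideanSpace ℝ ι) := fun i =>
    eigenspace (toEuclideanLin A) i.2 ⊓ eigenspace (toEuclideanLin B) i.1 with hW
  let b : ∀ i, OrthonormalBasis (Fin (Module.finrank ℝ (W i))) ℝ (W i) := fun i =>
    stdOrthonormalBasis ℝ (W i)
  let c := hint.collectedBasis (fun i => (b i).toBasis)
  have hcv : ∀ k, c k = ((b k.1 k.2 : W k.1) : EuclideanSpace ℝ ι) := by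
    intro k
    simp [c, hint.collectedBasis_coe]
  have hcmem : ∀ k, c k ∈ W k.1 := fun k => by rw [hcv]; exact (b k.1 k.2).2
  have hco : Orthonormal ℝ c :=
    hint.collectedBasis_orthonormal horth (fun i => by simp)
  have : Fintype (Σ i, Fin (Module.finrank ℝ (W i))) := FiniteDimensional.fintypeBasisIndex c
  let ob : OrthonormalBasis _ ℝ (EuclideanSpace ℝ ι) := c.toOrthonormalBasis hco
  have hcard : Fintype.card (Σ i, Fin (Module.finrank ℝ (W i))) = Fintype.card ι := by
    rw [← Module.finrank_eq_card_basis c, finrank_euclideanSpace]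
  let e := Fintype.equivOfCardEq hcard
  refine ⟨ob.reindex e, fun i => (e.symm i).1.2, fun i => (e.symm i).1.1, ?_, ?_⟩
  · intro i
    have h1 : c (e.symm i) ∈ eigenspace (toEuclideanLin A) (e.symm i).1.2 := (hcmem (e.symm i)).1
    rw [mem_eigenspace_iff] at h1
    simpa [ob] using h1
  · intro i
    have h1 : c (e.symm i) ∈ eigenspace (toEuclideanLin B) (e.symm i).1.1 := (hcmem (e.symm i)).2
    rw [mem_eigenspace_iff] at h1
    simpa [ob] using h1

/-- (A6) a symmetric unitary matrix is diagonalised by a real orthogonal matrix. -/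
theorem exists_real_diag {S : Matrix ι ι ℂ} (hS : S ∈ symU ι) :
    ∃ (O : unitaryGroup ι ℂ) (d : ι → ℂ), IsReal O ∧ (∀ i, ‖d i‖ = 1) ∧
      S = O.1 * diagonal d * O.1ᵀ := by
  classical
  have hsym : ∀ i j, S j i = S i j := fun i j => congrFun (congrFun hS.2 i) j
  obtain ⟨A, hAdef⟩ : ∃ A : Matrix ι ι ℝ, ∀ i j, A i j = (S i j).re :=
    ⟨fun i j => (S i j).re, fun _ _ => rfl⟩
  obtain ⟨B, hBdef⟩ : ∃ B : Matrix ι ι ℝ, ∀ i j, B i j = (S i j).im :=
    ⟨fun i j => (S i j).im, fun _ _ => rfl⟩
  have hA : A.IsHermitian := by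
    ext i j
    rw [conjTranspose_apply, hAdef, hAdef, hsym i j, star_trivial]
  have hB : B.IsHermitian := by
    ext i j
    rw [conjTranspose_apply, hBdef, hBdef, hsym i j, star_trivial]
  have hSS : S * star S = 1 := mem_unitaryGroup_iff.mp hS.1
  have hAB : A * B = B * A := by
    ext i j
    have h := congrArg Complex.im (congrFun (congrFun hSS i) j)
    have h1 : ((1 : Matrix ι ι ℂ) i j).im = 0 := by
      rw [one_apply]
      split_ifs <;> simp
    rw [h1, mul_apply, Complex.im_sum] at h
    have h2 : ∀ k, (S i k * (star S) k j).im = B i k * A k j - A i k * B k j := by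
      intro k
      rw [star_apply, hsym k j, hAdef, hAdef, hBdef, hBdef, Complex.mul_im, RCLike.star_def,
        Complex.conj_im, Complex.conj_re]
      ring
    have h3 : ∑ k, (B i k * A k j - A i k * B k j) = 0 := by
      rw [← h]
      exact Finset.sum_congr rfl fun k _ => (h2 k).symm
    rw [Finset.sum_sub_distrib] at h3
    rw [mul_apply, mul_apply]
    linarith
  obtain ⟨v, a, b, ha, hb⟩ := exists_joint_eigenbasis A B hA hB hAB
  -- the complexified eigenvector matrix
  obtain ⟨O, hOdef⟩ : ∃ O : Matrix ι ι ℂ, ∀ i j, O i j = ((v j i : ℝ) : ℂ) :=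
    ⟨fun i j => ((v j i : ℝ) : ℂ), fun _ _ => rfl⟩
  have hOO : Oᵀ * O = 1 := by
    ext i j
    rw [mul_apply]
    have h := orthonormal_iff_ite.mp v.orthonormal i j
    have h2 : ∑ k, Oᵀ i k * O k j = ((∑ k, v i k * v j k : ℝ) : ℂ) := by
      push_cast
      exact Finset.sum_congr rfl fun k _ => by rw [transpose_apply, hOdef, hOdef]
    rw [h2]
    have h3 : ∑ k, v i k * v j k = if i = j then 1 else 0 := by
      rw [← h, PiLp.inner_apply]
      refine Finset.sum_congr rfl fun k _ => ?_
      simp [mul_comm]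
    rw [h3, one_apply]
    split_ifs <;> simp
  have hstar : star O = Oᵀ := by
    ext i j
    rw [star_apply, transpose_apply, hOdef, RCLike.star_def, Complex.conj_ofReal]
  have hOu : O ∈ unitaryGroup ι ℂ := by
    rw [mem_unitaryGroup_iff', hstar]
    exact hOO
  have hOO' : O * Oᵀ = 1 := by
    rw [← hstar]
    exact mem_unitaryGroup_iff.mp hOu
  set d : ι → ℂ := fun i => (a i : ℂ) + (b i : ℂ) * Complex.I with hddef
  have hSO : S * O = O * diagonal d := by
    ext i j
    rw [mul_apply, mul_diagonal]
    have h1 : ∑ k, A i k * v j k = a j * v j i := by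
      have h := congrArg (fun x : EuclideanSpace ℝ ι => x i) (ha j)
      simpa [toLpLin_apply, mulVec, dotProduct] using h
    have h2 : ∑ k, B i k * v j k = b j * v j i := by
      have h := congrArg (fun x : EuclideanSpace ℝ ι => x i) (hb j)
      simpa [toLpLin_apply, mulVec, dotProduct] using h
    have h3 : ∀ k, S i k * O k j = ((A i k * v j k : ℝ) : ℂ) + ((B i k * v j k : ℝ) : ℂ) * Complex.I := by
      intro k
      have : S i k = ((S i k).re : ℂ) + ((S i k).im : ℂ) * Complex.I := (Complex.re_add_im _).symm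
      rw [this, hOdef, hAdef, hBdef]
      push_cast
      ring
    simp only [h3, Finset.sum_add_distrib]
    rw [← Finset.sum_mul, ← Complex.ofReal_sum, ← Complex.ofReal_sum, h1, h2]
    rw [hOdef]
    simp only [hddef]
    push_cast
    ring
  have hfin : S = O * diagonal d * Oᵀ := by
    rw [← hSO, Matrix.mul_assoc, hOO', Matrix.mul_one]
  refine ⟨⟨O, hOu⟩, d, fun i j => by
    change (O i j).im = 0
    rw [hOdef, Complex.ofReal_im], ?_, hfin⟩
  have hD : diagonal d = Oᵀ * S * O := by
    rw [Matrix.mul_assoc, hSO, ← Matrix.mul_assoc, hOO, Matrix.one_mul]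
  have hDu : diagonal d ∈ unitaryGroup ι ℂ := by
    rw [hD]
    exact mul_mem (mul_mem (transpose_mem_unitaryGroup hOu) hS.1) hOu
  intro i
  have h := congrFun (congrFun (mem_unitaryGroup_iff.mp hDu) i) i
  rw [star_eq_conjTranspose, diagonal_conjTranspose, diagonal_mul_diagonal, diagonal_apply_eq,
    one_apply_eq] at h
  have h2 : (d i) * (starRingEnd ℂ) (d i) = 1 := h
  rw [Complex.mul_conj, ← Complex.ofReal_one, Complex.ofReal_inj, Complex.normSq_eq_norm_sq] at h2
  nlinarith [norm_nonneg (d i)]

end Vale.Agent.P156.F
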