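import Vale.Agent.P156.F.Haar

/-! The law of one diagonal entry under an invariant law. -/

open Matrix MeasureTheory Topology
open scoped ComplexConjugate

namespace Vale.Agent.P156.F

variable {ι : Type} [Fintype ι] [DecidableEq ι]

/-- the phases `z` at `i0` and `z⁻¹` at `i1`. -/
noncomputable def ph (i0 i1 : ι) (z : ℂ) : ι → ℂ :=
  Function.update (Function.update (fun _ : ι => (1 : ℂ)) i1 z⁻¹) i0 z

theorem ph_zero (i0 i1 : ι) (z : ℂ) : ph i0 i1 z i0 = z := Function.update_self ..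

theorem ph_one {i0 i1 : ι} (hne : i0 ≠ i1) (z : ℂ) : ph i0 i1 z i1 = z⁻¹ := by
  rw [ph, Function.update_of_ne (Ne.symm hne), Function.update_self]

theorem norm_ph (i0 i1 : ι) {z : ℂ} (hz : ‖z‖ = 1) (i : ι) : ‖ph i0 i1 z i‖ = 1 := by
  unfold ph
  by_cases hi : i = i0
  · subst hi; rw [Function.update_self, hz]
  · rw [Function.update_of_ne hi]
    by_cases hi' : i = i1
    · subst hi'; rw [Function.update_self, norm_inv, hz, inv_one]
    · rw [Function.update_of_ne hi', norm_one]

theorem det_ph {i0 i1 : ι} (hne : i0 ≠ i1) {z : ℂ} (hz : ‖z‖ = 1) :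
    (diagU (ph i0 i1 z) (norm_ph i0 i1 hz)).1.det = 1 := by
  have hz0 : z ≠ 0 := by
    intro h
    rw [h, norm_zero] at hz
    exact zero_ne_one hz
  rw [coe_diagU, det_diagonal, ph, Finset.prod_update_of_mem (Finset.mem_univ i0),
    Finset.prod_update_of_mem (by simp [Ne.symm hne])]
  simp [hz0]

theorem DInv.inv_ph {μ : Measure (SymU ι)} (hμ : DInv μ) {i0 i1 : ι} (hne : i0 ≠ i1) {z : ℂ}
    (hz : ‖z‖ = 1) : InvBy μ (diagU (ph i0 i1 z) (norm_ph i0 i1 hz)) :=
  hμ _ (by rw [coe_diagU]; exact isDiag_diagonal _) (det_ph hne hz)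

/-- The law of a diagonal entry is rotation invariant. -/
theorem map_entry_rot {μ : Measure (SymU ι)} (hμ : DInv μ) {i0 i1 : ι} (hne : i0 ≠ i1)
    {w : ℂ} (hw : ‖w‖ = 1) :
    μ.map (fun S => w * S.1 i0 i0) = μ.map (fun S => S.1 i0 i0) := by
  obtain ⟨z, hz, hz1⟩ := exists_sqrt hw
  have h := hμ.inv_ph hne hz1
  have h1 : μ.map (fun S : SymU ι => S.1 i0 i0) =
      (μ.map (fun S => diagU (ph i0 i1 z) (norm_ph i0 i1 hz1) • S)).map
        (fun S : SymU ι => S.1 i0 i0) := by rw [h]
  rw [h1, Measure.map_map (continuous_entry i0 i0).measurable (measurable_smul _)]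
  congr 1
  ext1 S
  simp only [Function.comp_apply, diagU_smul_apply, ph_zero]
  rw [← hz]
  ring

theorem integral_entry_rot {μ : Measure (SymU ι)} (hμ : DInv μ) {i0 i1 : ι} (hne : i0 ≠ i1)
    {w : ℂ} (hw : ‖w‖ = 1) {P : ℂ → ℂ} (hP : Measurable P) :
    ∫ S, P (w * S.1 i0 i0) ∂μ = ∫ S, P (S.1 i0 i0) ∂μ := by
  have hm : Measurable (fun S : SymU ι => w * S.1 i0 i0) :=
    (continuous_const.mul (continuous_entry i0 i0)).measurable
  rw [← integral_map (φ := fun S : SymU ι => w * S.1 i0 i0) hm.aemeasurable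
    hP.aestronglyMeasurable, map_entry_rot hμ hne hw,
    integral_map (continuous_entry i0 i0).measurable.aemeasurable hP.aestronglyMeasurable]

/-- A diagonal entry has no atoms except possibly `0`. -/
theorem measure_entry_eq {μ : Measure (SymU ι)} [IsFiniteMeasure μ] (hμ : DInv μ) {i0 i1 : ι}
    (hne : i0 ≠ i1) {c : ℂ} (hc : c ≠ 0) : μ {S | S.1 i0 i0 = c} = 0 := by
  set ρ := μ.map (fun S : SymU ι => S.1 i0 i0) with hρ
  have hmeas : Measurable (fun S : SymU ι => S.1 i0 i0) := (continuous_entry i0 i0).measurable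
  have hfin : IsFiniteMeasure ρ := by rw [hρ]; infer_instance
  have hkey : ∀ w : ℂ, ‖w‖ = 1 → ρ {w * c} = ρ {c} := by
    intro w hw
    have h := map_entry_rot hμ hne hw
    have hm : Measurable (fun z : ℂ => w * z) := measurable_const_mul w
    have h2 : μ.map (fun S : SymU ι => w * S.1 i0 i0) = ρ.map (fun z => w * z) := by
      rw [hρ, Measure.map_map hm hmeas]
      rfl
    have hw0 : w ≠ 0 := by
      intro h
      rw [h, norm_zero] at hw
      exact zero_ne_one hw
    have h3 : ρ.map (fun z => w * z) {w * c} = ρ {w * c} := by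
      rw [← h2, h]
    rw [← h3, Measure.map_apply hm (measurableSet_singleton _)]
    congr 1
    ext z
    simp [hw0]
  -- infinitely many points of the circle
  have hden : ∀ n : ℕ, (1 - (n : ℂ) * Complex.I) ≠ 0 := by
    intro n h
    have := congrArg Complex.re h
    simp at this
  let w : ℕ → ℂ := fun n => (1 + (n : ℂ) * Complex.I) / (1 - (n : ℂ) * Complex.I)
  have hwn : ∀ n, ‖w n‖ = 1 := by
    intro n
    have h1 : ‖1 + (n : ℂ) * Complex.I‖ = ‖1 - (n : ℂ) * Complex.I‖ := by
      have : conj (1 + (n : ℂ) * Complex.I) = 1 - (n : ℂ) * Complex.I := by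
        simp [sub_eq_add_neg]
      rw [← this, Complex.norm_conj]
    simp only [w]
    rw [norm_div, h1, div_self]
    exact norm_ne_zero_iff.mpr (hden n)
  have hinj : Function.Injective w := by
    intro m n h
    simp only [w] at h
    rw [div_eq_div_iff (hden m) (hden n)] at h
    have h2 : ((m : ℂ) - n) * (2 * Complex.I) = 0 := by linear_combination h
    have h3 : ((m : ℂ) - n) = 0 := by
      rcases mul_eq_zero.mp h2 with h | h
      · exact h
      · exact absurd h (by simp)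
    exact_mod_cast sub_eq_zero.mp h3
  have hsum : ∑' n : ℕ, ρ {w n * c} = ρ (⋃ n, {w n * c}) := by
    rw [measure_iUnion]
    · intro m n hmn
      simp only [Function.onFun, Set.disjoint_singleton]
      intro h
      exact hmn (hinj (mul_right_cancel₀ hc h))
    · intro n
      exact measurableSet_singleton _
  have hlt : ∑' n : ℕ, ρ {w n * c} < ⊤ := by
    rw [hsum]
    exact measure_lt_top ρ _
  simp only [fun n => hkey (w n) (hwn n)] at hlt
  by_contra hne0
  have h4 : μ {S | S.1 i0 i0 = c} = ρ {c} := by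
    rw [hρ, Measure.map_apply hmeas (measurableSet_singleton _)]
    rfl
  rw [h4] at hne0
  rw [ENNReal.tsum_const_eq_top_of_ne_zero hne0] at hlt
  exact lt_irrefl _ hlt

/-- mixed moments of a diagonal entry vanish. -/
theorem moment_eq_zero {μ : Measure (SymU ι)} (hμ : DInv μ) {i0 i1 : ι} (hne : i0 ≠ i1)
    {a b : ℕ} (hab : a ≠ b) : ∫ S, conj (S.1 i0 i0) ^ a * (S.1 i0 i0) ^ b ∂μ = 0 := by
  -- a phase `w` with `conj w ^ a * w ^ b = -1`
  obtain ⟨w, hw, hwab⟩ : ∃ w : ℂ, ‖w‖ = 1 ∧ conj w ^ a * w ^ b = -1 := by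
    have key : ∀ m : ℕ, m ≠ 0 → ∃ w : ℂ, ‖w‖ = 1 ∧ w ^ m = -1 := by
      intro m hm
      obtain ⟨w, hw⟩ := IsAlgClosed.exists_pow_nat_eq (-1 : ℂ) (Nat.pos_of_ne_zero hm)
      refine ⟨w, ?_, hw⟩
      have h1 : ‖w‖ ^ m = 1 := by rw [← norm_pow, hw, norm_neg, norm_one]
      exact (pow_eq_one_iff_of_nonneg (norm_nonneg w) hm).mp h1
    have hcc : ∀ w : ℂ, ‖w‖ = 1 → conj w * w = 1 := by
      intro w hw
      rw [mul_comm, Complex.mul_conj, Complex.normSq_eq_norm_sq, hw]
      simp
    rcases lt_or_gt_of_ne hab with h | h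
    · obtain ⟨w, hw, hwm⟩ := key (b - a) (by omega)
      refine ⟨w, hw, ?_⟩
      have : b = a + (b - a) := by omega
      rw [this, pow_add, ← mul_assoc, ← mul_pow, hcc w hw, one_pow, one_mul, hwm]
    · obtain ⟨w, hw, hwm⟩ := key (a - b) (by omega)
      refine ⟨w, hw, ?_⟩
      have : a = (a - b) + b := by omega
      rw [this, pow_add, mul_assoc, ← mul_pow, hcc w hw, one_pow, mul_one, ← map_pow, hwm]
      simp
  have hP : Measurable (fun z : ℂ => conj z ^ a * z ^ b) := by
    have : Continuous (fun z : ℂ => conj z ^ a * z ^ b) := by fun_prop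
    exact this.measurable
  have h := integral_entry_rot hμ hne hw hP
  have h2 : ∀ S : SymU ι, conj (w * S.1 i0 i0) ^ a * (w * S.1 i0 i0) ^ b =
      -(conj (S.1 i0 i0) ^ a * (S.1 i0 i0) ^ b) := by
    intro S
    rw [map_mul, mul_pow, mul_pow]
    linear_combination (conj (S.1 i0 i0) ^ a * (S.1 i0 i0) ^ b) * hwab
  simp only [h2, integral_neg] at h
  have h3 : (2 : ℂ) * ∫ S, conj (S.1 i0 i0) ^ a * (S.1 i0 i0) ^ b ∂μ = 0 := by
    linear_combination -h
  exact (mul_eq_zero.mp h3).resolve_left (by norm_num)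

end Vale.Agent.P156.F
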