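import Vale.Agent.P156.F.Unique

/-! Complements: the closing map is equivariant, full unitary invariance, one-step contraction. -/

open Matrix MeasureTheory Topology
open scoped ComplexConjugate

namespace Vale.Agent.P156.F

/-! ### Equivariance of the closing map -/

/-- `1 ⊕ U` as a matrix of size `t + 1`. -/
noncomputable def extM {t : ℕ} (U : Matrix (Fin t) (Fin t) ℂ) :
    Matrix (Fin (t + 1)) (Fin (t + 1)) ℂ :=
  Matrix.of (Fin.cons (Fin.cons 1 (fun _ => 0)) (fun i => Fin.cons 0 (U i)))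

@[simp] theorem extM_zero_zero {t : ℕ} (U : Matrix (Fin t) (Fin t) ℂ) : extM U 0 0 = 1 := rfl

@[simp] theorem extM_zero_succ {t : ℕ} (U : Matrix (Fin t) (Fin t) ℂ) (j : Fin t) :
    extM U 0 j.succ = 0 := rfl

@[simp] theorem extM_succ_zero {t : ℕ} (U : Matrix (Fin t) (Fin t) ℂ) (i : Fin t) :
    extM U i.succ 0 = 0 := rfl

@[simp] theorem extM_succ_succ {t : ℕ} (U : Matrix (Fin t) (Fin t) ℂ) (i j : Fin t) :
    extM U i.succ j.succ = U i j := rfl

theorem extM_mem {t : ℕ} {U : Matrix (Fin t) (Fin t) ℂ} (hU : U ∈ unitaryGroup (Fin t) ℂ) :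
    extM U ∈ unitaryGroup (Fin (t + 1)) ℂ := by
  rw [mem_unitaryGroup_iff] at *
  ext i j
  rw [mul_apply, Fin.sum_univ_succ]
  have h : ∀ i j : Fin t, ∑ k, U i k * star (U j k) = if i = j then 1 else 0 := by
    intro i j
    have := congrFun (congrFun hU i) j
    rw [mul_apply, one_apply] at this
    exact this
  refine Fin.cases ?_ (fun i => ?_) i <;> refine Fin.cases ?_ (fun j => ?_) j
  · simp
  · simp [one_apply_ne (Fin.succ_ne_zero j).symm]
  · simp [one_apply_ne (Fin.succ_ne_zero i)]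
  · simp only [extM_succ_zero, zero_mul, zero_add, star_apply, extM_succ_succ]
    rw [h, one_apply]
    simp only [Fin.succ_inj]

/-- `1 ⊕ U` as a unitary matrix. -/
noncomputable def extU {t : ℕ} (U : unitaryGroup (Fin t) ℂ) : unitaryGroup (Fin (t + 1)) ℂ :=
  ⟨extM U.1, extM_mem U.2⟩

theorem isReal_extU {t : ℕ} {U : unitaryGroup (Fin t) ℂ} (hU : IsReal U) : IsReal (extU U) := by
  intro i j
  change (extM U.1 i j).im = 0
  refine Fin.cases ?_ (fun i => ?_) i <;> refine Fin.cases ?_ (fun j => ?_) j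
  · simp
  · simp
  · simp
  · exact hU i j

theorem isDiag_extU {t : ℕ} {U : unitaryGroup (Fin t) ℂ} (hU : U.1.IsDiag) :
    (extU U).1.IsDiag := by
  intro i j hij
  change extM U.1 i j = 0
  revert hij
  refine Fin.cases ?_ (fun i => ?_) i <;> refine Fin.cases ?_ (fun j => ?_) j
  · intro h; exact absurd rfl h
  · intro _; simp
  · intro _; simp
  · intro h; exact hU (i := i) (j := j) (fun h2 => h (congrArg Fin.succ h2))

theorem det_extU {t : ℕ} (U : unitaryGroup (Fin t) ℂ) : (extU U).1.det = U.1.det := by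
  change (extM U.1).det = _
  rw [det_succ_row_zero, Fin.sum_univ_succ]
  simp only [extM_zero_succ, mul_zero, zero_mul, Finset.sum_const_zero, add_zero, Fin.val_zero,
    pow_zero, one_mul, extM_zero_zero]
  congr 1

theorem extU_smul_zero_zero {t : ℕ} (U : unitaryGroup (Fin t) ℂ) (S : SymU (Fin (t + 1))) :
    (extU U • S : SymU (Fin (t + 1))).1 0 0 = S.1 0 0 := by
  change (extM U.1 * S.1 * (extM U.1)ᵀ) 0 0 = _
  rw [mul_apply, Fin.sum_univ_succ]
  simp [mul_apply, Fin.sum_univ_succ]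

theorem clos_extU_smul {t : ℕ} {ν : ℂ} (hν : ‖ν‖ = 1) (U : unitaryGroup (Fin t) ℂ)
    {S : SymU (Fin (t + 1))} (h0 : S.1 0 0 ≠ ν⁻¹) :
    clos ν (extU U • S) = U • clos ν S := by
  apply Subtype.ext
  have h0' : (extU U • S : SymU (Fin (t + 1))).1 0 0 ≠ ν⁻¹ := by
    rw [extU_smul_zero_zero]
    exact h0
  rw [coe_clos hν h0', coe_smul U (clos ν S), coe_clos hν h0]
  have e00 := extU_smul_zero_zero U S
  have ei0 : ∀ i : Fin t, (extU U • S : SymU (Fin (t + 1))).1 i.succ 0 =
      ∑ k, U.1 i k * S.1 k.succ 0 := by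
    intro i
    change (extM U.1 * S.1 * (extM U.1)ᵀ) i.succ 0 = _
    rw [mul_apply, Fin.sum_univ_succ]
    simp [mul_apply, Fin.sum_univ_succ]
  have e0j : ∀ j : Fin t, (extU U • S : SymU (Fin (t + 1))).1 0 j.succ =
      ∑ l, S.1 0 l.succ * U.1 j l := by
    intro j
    change (extM U.1 * S.1 * (extM U.1)ᵀ) 0 j.succ = _
    rw [mul_apply, Fin.sum_univ_succ]
    simp [mul_apply, Fin.sum_univ_succ]
  have eij : ∀ i j : Fin t, (extU U • S : SymU (Fin (t + 1))).1 i.succ j.succ =
      ∑ l, (∑ k, U.1 i k * S.1 k.succ l.succ) * U.1 j l := by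
    intro i j
    change (extM U.1 * S.1 * (extM U.1)ᵀ) i.succ j.succ = _
    rw [mul_apply, Fin.sum_univ_succ]
    simp [mul_apply, Fin.sum_univ_succ]
  ext i j
  rw [closM_apply, e00, ei0, e0j, eij, mul_apply]
  simp only [mul_apply, transpose_apply, closM_apply]
  rw [Finset.mul_sum, ← Finset.sum_add_distrib]
  refine Finset.sum_congr rfl fun l _ => ?_
  have h1 : ∑ k, U.1 i k * (S.1 k.succ l.succ + S.1 k.succ 0 * (ν⁻¹ - S.1 0 0)⁻¹ * S.1 0 l.succ) =
      (∑ k, U.1 i k * S.1 k.succ l.succ) +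
      (∑ k, U.1 i k * S.1 k.succ 0) * (ν⁻¹ - S.1 0 0)⁻¹ * S.1 0 l.succ := by
    rw [Finset.sum_mul, Finset.sum_mul, ← Finset.sum_add_distrib]
    refine Finset.sum_congr rfl fun k _ => ?_
    ring
  rw [h1]
  ring

theorem InvBy.map_clos {t : ℕ} {ν : ℂ} (hν : ‖ν‖ = 1) {μ : Measure (SymU (Fin (t + 1)))}
    (h0 : μ {S | S.1 0 0 = ν⁻¹} = 0) {U : unitaryGroup (Fin t) ℂ} (h : InvBy μ (extU U)) :
    InvBy (μ.map (clos ν)) U := by
  unfold InvBy at *
  rw [Measure.map_map (measurable_smul U) (measurable_clos ν)]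
  have h1 : μ.map ((fun S => U • S) ∘ clos ν) = μ.map (clos ν ∘ fun S => extU U • S) := by
    refine Measure.map_congr ?_
    have hae : ∀ᵐ S ∂μ, S.1 0 0 ≠ ν⁻¹ := by
      rw [ae_iff]
      simpa only [ne_eq, not_not] using h0
    filter_upwards [hae] with S hS
    exact (clos_extU_smul hν U hS).symm
  rw [h1, ← Measure.map_map (measurable_clos ν) (measurable_smul _), h]

instance : Subsingleton (SymU (Fin 0)) := ⟨fun S T => by
  apply Subtype.ext
  ext i
  exact isEmptyElim i⟩

theorem invBy_zero (μ : Measure (SymU (Fin 0))) (U : unitaryGroup (Fin 0) ℂ) : InvBy μ U := by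
  unfold InvBy
  have : (fun S : SymU (Fin 0) => U • S) = id := by
    ext1 S
    exact Subsingleton.elim _ _
  rw [this, Measure.map_id]

theorem measure_eq_inv {t : ℕ} {ν : ℂ} (hν : ‖ν‖ = 1) {μ : Measure (SymU (Fin (t + 2)))}
    [IsFiniteMeasure μ] (hD : DInv μ) : μ {S | S.1 0 0 = ν⁻¹} = 0 := by
  have hν0 : ν ≠ 0 := by
    intro h
    rw [h, norm_zero] at hν
    exact zero_ne_one hν
  have hne : (0 : Fin (t + 2)) ≠ 1 := by
    intro h
    have := congrArg Fin.val h
    simp at this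
  exact measure_entry_eq hD hne (inv_ne_zero hν0)

/-- (L2) Orthogonal invariance passes through a closing. -/
theorem OInv.map_clos {t : ℕ} {ν : ℂ} (hν : ‖ν‖ = 1) {μ : Measure (SymU (Fin (t + 1)))}
    [IsFiniteMeasure μ] (hO : OInv μ) (hD : DInv μ) : OInv (μ.map (clos ν)) := by
  intro U hU
  rcases t with _ | t
  · exact invBy_zero _ U
  · exact InvBy.map_clos hν (measure_eq_inv hν hD) (hO _ (isReal_extU hU))

/-- (L2) Diagonal invariance passes through a closing. -/
theorem DInv.map_clos {t : ℕ} {ν : ℂ} (hν : ‖ν‖ = 1) {μ : Measure (SymU (Fin (t + 1)))}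
    [IsFiniteMeasure μ] (hD : DInv μ) : DInv (μ.map (clos ν)) := by
  intro U hU hdet
  rcases t with _ | t
  · exact invBy_zero _ U
  · exact InvBy.map_clos hν (measure_eq_inv hν hD)
      (hD _ (isDiag_extU hU) ((det_extU U).trans hdet))

/-- Full unitary invariance passes through a closing. -/
theorem UInv.map_clos {t : ℕ} {ν : ℂ} (hν : ‖ν‖ = 1) {μ : Measure (SymU (Fin (t + 1)))}
    [IsFiniteMeasure μ] (hU : ∀ U, InvBy μ U) (V : unitaryGroup (Fin t) ℂ) :
    InvBy (μ.map (clos ν)) V := by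
  rcases t with _ | t
  · exact invBy_zero _ V
  · exact InvBy.map_clos hν (measure_eq_inv hν (fun W _ _ => hU W)) (hU _)

/-! ### One-step contraction of the moments of the determinant -/

/-- (L1) with an explicit rate. -/
theorem exists_det_contraction (m : ℕ) : ∃ c : ℝ, 0 < c ∧ ∀ (t : ℕ)
    (μ : Measure (SymU (Fin (t + 2)))) [IsProbabilityMeasure μ], OInv μ → DInv μ →
    ∀ ν : ℂ, ‖ν‖ = 1 → ‖∫ S, S.1.det ^ (m + 1) ∂(μ.map (clos ν))‖ ≤
      (1 - c / (t + 3)) * ‖∫ S, S.1.det ^ (m + 1) ∂μ‖ := by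
  obtain ⟨c, hc, hb⟩ := exists_Qp_bound m
  refine ⟨2 * c, by positivity, ?_⟩
  intro t μ _ hO hD ν hν
  have h := norm_det_pow_map_clos hO hD hν m hb
  have h2 : c * (2 / ((t : ℝ) + 3)) = 2 * c / (t + 3) := by ring
  rwa [h2] at h

/-- (L1), without a rate. -/
theorem norm_det_moment_map_clos_le {t : ℕ} {μ : Measure (SymU (Fin (t + 2)))}
    [IsProbabilityMeasure μ] (hO : OInv μ) (hD : DInv μ) {ν : ℂ} (hν : ‖ν‖ = 1) (m : ℕ) :
    ‖∫ S, S.1.det ^ (m + 1) ∂(μ.map (clos ν))‖ ≤ ‖∫ S, S.1.det ^ (m + 1) ∂μ‖ := by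
  obtain ⟨c, hc, h⟩ := exists_det_contraction m
  refine (h t μ hO hD ν hν).trans ?_
  have h1 : 0 ≤ c / ((t : ℝ) + 3) := by positivity
  nlinarith [norm_nonneg (∫ S, S.1.det ^ (m + 1) ∂μ)]

/-- The abstract chain argument: a bounded sequence with
`a t ≤ (1 - c / (t + 1)) a (t + 1)` for large `t` vanishes. -/
theorem eq_zero_of_chain {a : ℕ → ℝ} (ha0 : ∀ t, 0 ≤ a t) {B : ℝ} (haB : ∀ t, a t ≤ B) {c : ℝ}
    (hc : 0 < c) {t1 : ℕ} (hstep : ∀ t, t1 ≤ t → a t ≤ (1 - c / ((t : ℝ) + 1)) * a (t + 1))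
    {t : ℕ} (ht : t1 ≤ t) : a t = 0 := by
  have hstep2 : ∀ t, t1 ≤ t → a t ≤ Real.exp (-(c * (1 / ((t : ℝ) + 1)))) * a (t + 1) := by
    intro t ht
    refine (hstep t ht).trans (mul_le_mul_of_nonneg_right ?_ (ha0 _))
    have h2 := Real.add_one_le_exp (-(c * (1 / ((t : ℝ) + 1))))
    have h4 : c / ((t : ℝ) + 1) = c * (1 / ((t : ℝ) + 1)) := by ring
    linarith
  have hB : 0 ≤ B := (ha0 0).trans (haB 0)
  have hind : ∀ n t, t1 ≤ t →
      a t ≤ Real.exp (-(c * ∑ j ∈ Finset.range n, 1 / (((t + j : ℕ) : ℝ) + 1))) * B := by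
    intro n
    induction n with
    | zero =>
      intro t ht
      simp only [Finset.range_zero, Finset.sum_empty, mul_zero, neg_zero, Real.exp_zero, one_mul]
      exact haB t
    | succ n ih =>
      intro t ht
      refine (hstep2 t ht).trans ?_
      refine (mul_le_mul_of_nonneg_left (ih (t + 1) (by omega)) (Real.exp_pos _).le).trans ?_
      rw [← mul_assoc, ← Real.exp_add]
      apply le_of_eq
      congr 2
      rw [Finset.sum_range_succ']
      have h5 : ∀ j, (((t + 1 + j : ℕ) : ℝ) + 1) = (((t + (j + 1) : ℕ) : ℝ) + 1) := by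
        intro j
        push_cast
        ring
      simp only [h5]
      push_cast
      ring
  have hdiv : Filter.Tendsto (fun n => ∑ j ∈ Finset.range n, 1 / (((t + j : ℕ) : ℝ) + 1))
      Filter.atTop Filter.atTop := by
    have h1 : Filter.Tendsto (fun n => ∑ j ∈ Finset.range (t + n), 1 / ((j : ℝ) + 1))
        Filter.atTop Filter.atTop :=
      Real.tendsto_sum_range_one_div_nat_succ_atTop.comp
        (Filter.tendsto_atTop_mono (fun n => Nat.le_add_left n t) Filter.tendsto_id)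
    have h2 : ∀ n, ∑ j ∈ Finset.range (t + n), 1 / ((j : ℝ) + 1) =
        ∑ j ∈ Finset.range t, 1 / ((j : ℝ) + 1) +
        ∑ j ∈ Finset.range n, 1 / (((t + j : ℕ) : ℝ) + 1) := by
      intro n
      rw [Finset.sum_range_add]
    simp only [h2] at h1
    have h3 := Filter.tendsto_atTop_add_const_left Filter.atTop
      (-(∑ j ∈ Finset.range t, 1 / ((j : ℝ) + 1))) h1
    refine h3.congr fun n => ?_
    ring
  have hlim : Filter.Tendsto (fun n =>
      Real.exp (-(c * ∑ j ∈ Finset.range n, 1 / (((t + j : ℕ) : ℝ) + 1))) * B)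
      Filter.atTop (𝓝 (0 * B)) := by
    refine Filter.Tendsto.mul_const B ?_
    refine Real.tendsto_exp_neg_atTop_nhds_zero.comp ?_
    exact hdiv.const_mul_atTop hc
  rw [zero_mul] at hlim
  exact le_antisymm (ge_of_tendsto' hlim fun n => hind n t ht) (ha0 t)

/-! ### Full unitary invariance -/

variable {ι : Type} [Fintype ι] [DecidableEq ι]

/-- (L3) vanishing determinant moments upgrade `SU`-invariance to full unitary invariance. -/
theorem invBy_all {μ : Measure (SymU ι)} [IsProbabilityMeasure μ] (hμ : SUInv μ)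
    (h : ∀ m : ℕ, ∫ S, S.1.det ^ (m + 1) ∂μ = 0) (U : unitaryGroup ι ℂ) : InvBy μ U := by
  rcases isEmpty_or_nonempty ι with hι | hι
  · have hsub : Subsingleton (SymU ι) := ⟨fun S T => by
      apply Subtype.ext
      ext i
      exact isEmptyElim i⟩
    unfold InvBy
    have : (fun S : SymU ι => U • S) = id := by
      ext1 S
      exact Subsingleton.elim _ _
    rw [this, Measure.map_id]
  have hcard : 0 < Fintype.card ι := Fintype.card_pos
  obtain ⟨z, hz⟩ := IsAlgClosed.exists_pow_nat_eq U.1.det hcard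
  have hz1 : ‖z‖ = 1 := by
    have h1 : ‖z‖ ^ (Fintype.card ι) = 1 := by
      rw [← norm_pow, hz, norm_det_unitary]
    exact (pow_eq_one_iff_of_nonneg (norm_nonneg z) hcard.ne').mp h1
  have hz0 : z ≠ 0 := by
    intro h
    rw [h, norm_zero] at hz1
    exact zero_ne_one hz1
  set Z := diagU (fun _ : ι => z) (fun _ => hz1) with hZ
  have hZcomm : ∀ V : unitaryGroup ι ℂ, V * Z = Z * V := by
    intro V
    apply Subtype.ext
    change V.1 * diagonal (fun _ => z) = diagonal (fun _ => z) * V.1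
    rw [show diagonal (fun _ : ι => z) = z • (1 : Matrix ι ι ℂ) from (smul_one_eq_diagonal z).symm,
      Matrix.mul_smul, Matrix.smul_mul, Matrix.mul_one, Matrix.one_mul]
  have hZdet : Z.1.det = U.1.det := by
    rw [hZ, coe_diagU, det_diagonal, Finset.prod_const, Finset.card_univ, hz]
  -- invariance by the scalar
  have hscal : InvBy μ Z := by
    have hprob : IsProbabilityMeasure (μ.map (fun S : SymU ι => Z • S)) :=
      Measure.isProbabilityMeasure_map (measurable_smul Z).aemeasurable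
    have hSU : SUInv (μ.map (fun S : SymU ι => Z • S)) := by
      intro V hV
      unfold InvBy
      rw [Measure.map_map (measurable_smul V) (measurable_smul Z)]
      have : ((fun S : SymU ι => V • S) ∘ fun S => Z • S) = (fun S => Z • S) ∘ fun S => V • S := by
        ext1 S
        simp only [Function.comp_apply]
        rw [← mul_smul, ← mul_smul, hZcomm]
      rw [this, ← Measure.map_map (measurable_smul Z) (measurable_smul V), hμ V hV]
    refine eq_of_det_moments hSU hμ fun m => ?_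
    have hdm : Measurable (fun S : SymU ι => S.1.det ^ (m + 1)) :=
      (continuous_det_symU.pow (m + 1)).measurable
    rw [integral_map (measurable_smul Z).aemeasurable hdm.aestronglyMeasurable, h m]
    have h1 : ∀ S : SymU ι, (Z • S : SymU ι).1.det ^ (m + 1) =
        (Z.1.det ^ 2) ^ (m + 1) * S.1.det ^ (m + 1) := by
      intro S
      rw [det_smul_SymU, mul_pow]
    simp only [h1]
    rw [integral_const_mul, h m, mul_zero]
  -- `U = Z (Z⁻¹ U)`
  have hg : (Z⁻¹ * U).1.det = 1 := by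
    change ((Z⁻¹).1 * U.1).det = 1
    have h2 : (Z⁻¹).1 * Z.1 = 1 := congrArg Subtype.val (inv_mul_cancel Z)
    have h3 := congrArg Matrix.det h2
    rw [det_mul, det_one, hZdet] at h3
    rw [det_mul, h3]
  have h4 := hscal.mul (hμ _ hg)
  rwa [mul_inv_cancel_left] at h4

/-- Conversely, the moments of the determinant of a unitarily invariant law vanish. -/
theorem det_moment_of_invBy [Nonempty ι] {μ : Measure (SymU ι)} (h : ∀ U, InvBy μ U) (m : ℕ) :
    ∫ S, S.1.det ^ (m + 1) ∂μ = 0 := by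
  obtain ⟨i0⟩ := ‹Nonempty ι›
  obtain ⟨z, hz⟩ := IsAlgClosed.exists_pow_nat_eq (-1 : ℂ) (n := 2 * (m + 1)) (by omega)
  have hz1 : ‖z‖ = 1 := by
    have h1 : ‖z‖ ^ (2 * (m + 1)) = 1 := by rw [← norm_pow, hz, norm_neg, norm_one]
    exact (pow_eq_one_iff_of_nonneg (norm_nonneg z) (by omega)).mp h1
  have he : ∀ i, ‖Function.update (fun _ : ι => (1 : ℂ)) i0 z i‖ = 1 := by
    intro i
    by_cases hi : i = i0
    · subst hi; rw [Function.update_self, hz1]
    · rw [Function.update_of_ne hi, norm_one]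
  have hd : (diagU _ he).1.det = z := by
    rw [coe_diagU, det_diagonal, Finset.prod_update_of_mem (Finset.mem_univ i0)]
    simp
  have h1 := (h (diagU _ he)).integral (continuous_det_symU.pow (m + 1))
  have h2 : ∀ S : SymU ι, (diagU _ he • S : SymU ι).1.det ^ (m + 1) = - S.1.det ^ (m + 1) := by
    intro S
    rw [det_smul_SymU, hd, mul_pow, ← pow_mul, hz]
    ring
  simp only [Pi.pow_apply] at h1
  simp only [h2, integral_neg] at h1
  have h3 : (2 : ℂ) * ∫ S, S.1.det ^ (m + 1) ∂μ = 0 := by linear_combination -h1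
  exact (mul_eq_zero.mp h3).resolve_left (by norm_num)

/-- Two unitarily invariant probability laws coincide. -/
theorem eq_of_invBy_all {μ μ' : Measure (SymU ι)} [IsProbabilityMeasure μ]
    [IsProbabilityMeasure μ'] (h : ∀ U, InvBy μ U) (h' : ∀ U, InvBy μ' U) : μ = μ' := by
  rcases isEmpty_or_nonempty ι with hι | hι
  · refine eq_of_det_moments (fun U _ => h U) (fun U _ => h' U) fun m => ?_
    have h3 : ∀ S : SymU ι, S.1.det ^ (m + 1) = 1 := by
      intro S
      rw [det_isEmpty, one_pow]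
    simp only [h3]
    simp
  · exact eq_of_det_moments (fun U _ => h U) (fun U _ => h' U) fun m => by
      rw [det_moment_of_invBy h, det_moment_of_invBy h']

end Vale.Agent.P156.F
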