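import Mathlib

/-! The polynomials `₂F₁(-k, k; 1; x)`: `|Q(x)| ≤ 1 - c x` on `[0,1]`. -/

open Polynomial

namespace Vale.Agent.P156.F

/-- coefficients of `₂F₁(-(m+1), m+1; 1; x)`. -/
noncomputable def qc (m j : ℕ) : ℝ := (-1) ^ j * ((m + 1).choose j : ℝ) * ((j + m).choose m : ℝ)

theorem qc_rec (m j : ℕ) :
    ((j : ℝ) + 1) ^ 2 * qc m (j + 1) = ((j : ℝ) ^ 2 - ((m : ℝ) + 1) ^ 2) * qc m j := by
  unfold qc
  have h1 : (((m + 1).choose (j + 1) : ℕ) : ℝ) * ((j : ℝ) + 1) =
      ((m + 1).choose j : ℝ) * (((m : ℝ) + 1) - j) := by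
    rcases le_or_gt j (m + 1) with h | h
    · have := Nat.choose_succ_right_eq (m + 1) j
      have h2 : ((((m + 1).choose (j + 1)) * (j + 1) : ℕ) : ℝ) =
          ((((m + 1).choose j) * (m + 1 - j) : ℕ) : ℝ) := by exact_mod_cast this
      push_cast [Nat.cast_sub h] at h2
      linarith
    · rw [Nat.choose_eq_zero_of_lt h, Nat.choose_eq_zero_of_lt (by omega : m + 1 < j + 1)]
      simp
  have h3 : (((j + 1 + m).choose m : ℕ) : ℝ) * ((j : ℝ) + 1) =
      ((j + m).choose m : ℝ) * ((j : ℝ) + m + 1) := by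
    have := Nat.choose_mul_succ_eq (j + m) m
    have h2 : j + m + 1 - m = j + 1 := by omega
    rw [h2] at this
    have h4 : j + 1 + m = j + m + 1 := by omega
    rw [h4]
    have h5 : ((((j + m).choose m) * (j + m + 1) : ℕ) : ℝ) =
        ((((j + m + 1).choose m) * (j + 1) : ℕ) : ℝ) := by exact_mod_cast this
    push_cast at h5
    linarith
  rw [pow_succ (-1 : ℝ) j]
  linear_combination (-(-1 : ℝ) ^ j * ((((j + 1 + m).choose m : ℕ) : ℝ) * ((j : ℝ) + 1))) * h1 +
    (-(-1 : ℝ) ^ j * (((m + 1).choose j : ℝ) * (((m : ℝ) + 1) - j))) * h3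

theorem qc_zero (m : ℕ) : qc m 0 = 1 := by simp [qc]

theorem qc_big {m j : ℕ} (h : m + 2 ≤ j) : qc m j = 0 := by
  rw [qc, Nat.choose_eq_zero_of_lt (by omega)]
  simp

/-- The polynomial. -/
noncomputable def Qp (m : ℕ) : ℝ[X] := ∑ j ∈ Finset.range (m + 2), monomial j (qc m j)

theorem coeff_Qp (m j : ℕ) : (Qp m).coeff j = qc m j := by
  rw [Qp, finsetSum_coeff]
  simp only [coeff_monomial]
  rw [Finset.sum_ite_eq' (Finset.range (m + 2)) j]
  split_ifs with h
  · rfl
  · exact (qc_big (by simpa using h)).symm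

theorem eval_Qp (m : ℕ) (x : ℝ) :
    (Qp m).eval x = ∑ j ∈ Finset.range (m + 2), qc m j * x ^ j := by
  rw [Qp, eval_finsetSum]
  simp only [eval_monomial]

theorem Qp_ode (m : ℕ) :
    X * (1 - X) * derivative (derivative (Qp m)) + (1 - X) * derivative (Qp m) +
      C (((m : ℝ) + 1) ^ 2) * Qp m = 0 := by
  have h : X * (1 - X) * derivative (derivative (Qp m)) + (1 - X) * derivative (Qp m) +
      C (((m : ℝ) + 1) ^ 2) * Qp m =
      X * derivative (derivative (Qp m)) - X * (X * derivative (derivative (Qp m))) +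
      derivative (Qp m) - X * derivative (Qp m) + C (((m : ℝ) + 1) ^ 2) * Qp m := by ring
  rw [h]
  ext n
  rcases n with _ | _ | n
  · simp only [coeff_add, coeff_sub, coeff_X_mul_zero, coeff_derivative, coeff_C_mul, coeff_Qp,
      coeff_zero]
    have := qc_rec m 0
    push_cast at *
    linarith
  · simp only [coeff_add, coeff_sub, coeff_X_mul, coeff_X_mul_zero, coeff_derivative,
      coeff_C_mul, coeff_Qp, coeff_zero]
    have := qc_rec m 1
    push_cast at *
    norm_num at *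
    linarith
  · simp only [coeff_add, coeff_sub, coeff_X_mul, coeff_derivative,
      coeff_C_mul, coeff_Qp, coeff_zero]
    have := qc_rec m (n + 2)
    push_cast at *
    linarith

/-- The energy. -/
noncomputable def Fp (m : ℕ) : ℝ[X] :=
  Qp m ^ 2 + C ((((m : ℝ) + 1) ^ 2)⁻¹) * (X * (1 - X) * derivative (Qp m) ^ 2)

theorem derivative_Fp (m : ℕ) :
    derivative (Fp m) = - C ((((m : ℝ) + 1) ^ 2)⁻¹) * derivative (Qp m) ^ 2 := by
  have h := Qp_ode m
  have hk : C ((((m : ℝ) + 1) ^ 2)⁻¹) * C (((m : ℝ) + 1) ^ 2) = (1 : ℝ[X]) := by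
    rw [← C_mul, inv_mul_cancel₀ (by positivity), C_1]
  rw [Fp]
  simp only [derivative_add, derivative_mul, derivative_pow, derivative_C, derivative_sub,
    derivative_X, derivative_one, zero_mul, zero_add, Nat.cast_ofNat]
  norm_num
  have hC2 : (C 2 : ℝ[X]) = 2 := rfl
  rw [hC2]
  linear_combination (2 * C ((((m : ℝ) + 1) ^ 2)⁻¹) * derivative (Qp m)) * h -
    (2 * Qp m * derivative (Qp m)) * hk

theorem deriv_eval_Fp (m : ℕ) (x : ℝ) : HasDerivAt (fun x => (Fp m).eval x)
    (- (((m : ℝ) + 1) ^ 2)⁻¹ * ((derivative (Qp m)).eval x) ^ 2) x := by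
  have h := (Fp m).hasDerivAt x
  rw [derivative_Fp] at h
  simpa using h

theorem antitone_Fp (m : ℕ) : Antitone (fun x => (Fp m).eval x) := by
  refine antitone_of_deriv_nonpos (fun x => (deriv_eval_Fp m x).differentiableAt) fun x => ?_
  rw [(deriv_eval_Fp m x).deriv]
  have h1 : 0 ≤ (((m : ℝ) + 1) ^ 2)⁻¹ := by positivity
  have h2 := mul_nonneg h1 (sq_nonneg ((derivative (Qp m)).eval x))
  linarith

theorem eval_Fp_zero (m : ℕ) : (Fp m).eval 0 = 1 := by
  have h : (Qp m).eval 0 = 1 := by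
    rw [← coeff_zero_eq_eval_zero, coeff_Qp, qc_zero]
  rw [Fp]
  simp [h]

theorem sq_eval_le (m : ℕ) {x : ℝ} (h0 : 0 ≤ x) (h1 : x ≤ 1) :
    (Qp m).eval x ^ 2 ≤ (Fp m).eval x := by
  rw [Fp]
  simp only [eval_add, eval_pow, eval_mul, eval_C, eval_X, eval_sub, eval_one]
  have : 0 ≤ (((m : ℝ) + 1) ^ 2)⁻¹ * (x * (1 - x) * (derivative (Qp m)).eval x ^ 2) := by
    have h2 : 0 ≤ 1 - x := by linarith
    positivity
  linarith

theorem exists_Qp_bound (m : ℕ) :
    ∃ c : ℝ, 0 < c ∧ ∀ x : ℝ, 0 ≤ x → x ≤ 1 → |(Qp m).eval x| ≤ 1 - c * x := by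
  set k2 : ℝ := ((m : ℝ) + 1) ^ 2 with hk2
  have hk2pos : 0 < k2 := by positivity
  -- the derivative at `0` is `-k²`
  have hQ0 : (derivative (Qp m)).eval 0 = -k2 := by
    rw [← coeff_zero_eq_eval_zero, coeff_derivative, coeff_Qp]
    have := qc_rec m 0
    rw [qc_zero] at this
    push_cast at *
    rw [hk2]
    linarith
  have hcont : ContinuousAt (fun x => (derivative (Qp m)).eval x) 0 :=
    (derivative (Qp m)).continuous.continuousAt
  have hev : ∀ᶠ x in nhds (0 : ℝ), (derivative (Qp m)).eval x < -(k2 / 2) := by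
    refine hcont.eventually_lt continuousAt_const ?_
    rw [hQ0]
    linarith
  obtain ⟨δ, hδ, hball⟩ := Metric.eventually_nhds_iff.mp hev
  set η : ℝ := min (δ / 2) 1 with hη
  have hηpos : 0 < η := lt_min (by linarith) one_pos
  have hη1 : η ≤ 1 := min_le_right _ _
  have hηδ : η < δ := lt_of_le_of_lt (min_le_left _ _) (by linarith)
  -- decay on `[0, η]`
  have hanti : AntitoneOn (fun x => (Fp m).eval x + k2 / 4 * x) (Set.Icc 0 η) := by
    have hd : ∀ x, HasDerivAt (fun x => (Fp m).eval x + k2 / 4 * x)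
        (- k2⁻¹ * ((derivative (Qp m)).eval x) ^ 2 + k2 / 4) x := by
      intro x
      have h1 := deriv_eval_Fp m x
      have h2 := (hasDerivAt_id x).const_mul (k2 / 4)
      simp only [id, mul_one] at h2
      exact h1.add h2
    refine antitoneOn_of_deriv_nonpos (convex_Icc 0 η) ?_ ?_ ?_
    · exact fun x _ => (hd x).continuousAt.continuousWithinAt
    · exact fun x _ => (hd x).differentiableAt.differentiableWithinAt
    · intro x hx
      rw [interior_Icc] at hx
      rw [(hd x).deriv]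
      have h3 : (derivative (Qp m)).eval x < -(k2 / 2) := by
        apply hball
        rw [Real.dist_eq, sub_zero, abs_of_pos hx.1]
        exact hx.2.trans hηδ
      have h4 : (k2 / 2) ^ 2 ≤ ((derivative (Qp m)).eval x) ^ 2 := by nlinarith
      have h5 : k2⁻¹ * (k2 / 2) ^ 2 = k2 / 4 := by
        field_simp
        ring
      have h6 := mul_le_mul_of_nonneg_left h4 (inv_nonneg.mpr hk2pos.le)
      linarith
  have hsmall : ∀ x, 0 ≤ x → x ≤ η → (Fp m).eval x ≤ 1 - k2 / 4 * x := by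
    intro x h0 h1
    have := hanti ⟨le_refl 0, hηpos.le⟩ ⟨h0, h1⟩ h0
    simp only [eval_Fp_zero, mul_zero, add_zero] at this
    linarith
  refine ⟨k2 * η / 8, by positivity, ?_⟩
  intro x h0 h1
  have hF : (Fp m).eval x ≤ 1 - k2 * η / 4 * x := by
    rcases le_total x η with h | h
    · have h2 := hsmall x h0 h
      have : k2 / 4 * η * x ≤ k2 / 4 * 1 * x := by gcongr
      nlinarith
    · have h2 := hsmall η hηpos.le le_rfl
      have h3 := antitone_Fp m h
      simp only at h3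
      have : k2 / 4 * η * x ≤ k2 / 4 * η * 1 := by gcongr
      nlinarith
  have hQ := (sq_eval_le m h0 h1).trans hF
  have hle : k2 * η / 4 * x ≤ 1 := by nlinarith [sq_nonneg ((Qp m).eval x)]
  apply abs_le_of_sq_le_sq _ (by linarith)
  nlinarith [sq_nonneg (k2 * η / 8 * x)]

end Vale.Agent.P156.F
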