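import Vale.Agent.P156.F.Second
import Vale.Agent.P156.F.Poly

/-! The factor `E ((1 - conj s)/(1 - s))^k`. -/

open Matrix MeasureTheory Topology
open scoped ComplexConjugate

namespace Vale.Agent.P156.F

variable {ι : Type} [Fintype ι] [DecidableEq ι]

theorem norm_entry_le (S : SymU ι) (i j : ι) : ‖S.1 i j‖ ≤ 1 :=
  entry_norm_bound_of_unitary S.2.1 i j

theorem one_sub_ne {r : ℝ} (h0 : 0 ≤ r) (h1 : r < 1) {s : ℂ} (hs : ‖s‖ ≤ 1) :
    1 - (r : ℂ) * s ≠ 0 := by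
  intro h
  have h2 : (r : ℂ) * s = 1 := (sub_eq_zero.mp h).symm
  have h3 : ‖(r : ℂ) * s‖ = 1 := by rw [h2, norm_one]
  rw [norm_mul, Complex.norm_real, Real.norm_eq_abs, abs_of_nonneg h0] at h3
  have : r * ‖s‖ ≤ r * 1 := by gcongr
  linarith

theorem conj_mul_self_pow (s : ℂ) (j : ℕ) : conj s ^ j * s ^ j = ((‖s‖ ^ 2 : ℝ) : ℂ) ^ j := by
  rw [← mul_pow, mul_comm, Complex.mul_conj, Complex.normSq_eq_norm_sq]

theorem integral_conj_pow_mul_inv {μ : Measure (SymU ι)} [IsProbabilityMeasure μ] (hμ : DInv μ)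
    {i0 i1 : ι} (hne : i0 ≠ i1) {r : ℝ} (h0 : 0 ≤ r) (h1 : r < 1) (m j : ℕ) :
    ∫ S, conj (S.1 i0 i0) ^ j * (1 / (1 - (r : ℂ) * S.1 i0 i0) ^ (m + 1)) ∂μ =
      ((j + m).choose m : ℂ) * (r : ℂ) ^ j * ∫ S, ((‖S.1 i0 i0‖ ^ 2 : ℝ) : ℂ) ^ j ∂μ := by
  have hs : Continuous (fun S : SymU ι => S.1 i0 i0) := continuous_entry _ _
  set F : ℕ → SymU ι → ℂ := fun n S =>
    ((n + m).choose m : ℂ) * (r : ℂ) ^ n * (conj (S.1 i0 i0) ^ j * (S.1 i0 i0) ^ n) with hF
  have hFc : ∀ n, Continuous (F n) := by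
    intro n
    exact continuous_const.mul (((Complex.continuous_conj.comp hs).pow j).mul (hs.pow n))
  have hFi : ∀ n, Integrable (F n) μ := fun n => integrable_of_continuous (hFc n)
  have hnorm : ∀ n S, ‖F n S‖ ≤ ((n + m).choose m : ℝ) * r ^ n := by
    intro n S
    simp only [hF]
    rw [norm_mul, norm_mul, norm_mul, norm_pow, norm_pow, norm_pow, Complex.norm_conj,
      Complex.norm_natCast, Complex.norm_real, Real.norm_eq_abs, abs_of_nonneg h0]
    have hn := norm_entry_le S i0 i0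
    have h2 : ‖S.1 i0 i0‖ ^ j * ‖S.1 i0 i0‖ ^ n ≤ 1 := by
      rw [← pow_add]
      exact pow_le_one₀ (norm_nonneg _) hn
    have h3 : 0 ≤ ((n + m).choose m : ℝ) * r ^ n := by positivity
    calc _ ≤ ((n + m).choose m : ℝ) * r ^ n * 1 := mul_le_mul_of_nonneg_left h2 h3
      _ = _ := mul_one _
  have hrn : ‖r‖ < 1 := by rw [Real.norm_eq_abs, abs_of_nonneg h0]; exact h1
  have hsumm : Summable (fun n => ((n + m).choose m : ℝ) * r ^ n) :=
    (hasSum_choose_mul_geometric_of_norm_lt_one m hrn).summable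
  have hsi : Summable (fun n => ∫ S, ‖F n S‖ ∂μ) := by
    refine Summable.of_nonneg_of_le (fun n => integral_nonneg fun S => norm_nonneg _)
      (fun n => ?_) hsumm
    calc ∫ S, ‖F n S‖ ∂μ ≤ ∫ _ : SymU ι, ((n + m).choose m : ℝ) * r ^ n ∂μ :=
          integral_mono (hFi n).norm (integrable_const _) (fun S => hnorm n S)
      _ = _ := by simp
  have hS := hasSum_integral_of_summable_integral_norm hFi hsi
  have htsum : ∀ S : SymU ι, ∑' n, F n S =
      conj (S.1 i0 i0) ^ j * (1 / (1 - (r : ℂ) * S.1 i0 i0) ^ (m + 1)) := by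
    intro S
    have hlt : ‖(r : ℂ) * S.1 i0 i0‖ < 1 := by
      rw [norm_mul, Complex.norm_real, Real.norm_eq_abs, abs_of_nonneg h0]
      have : r * ‖S.1 i0 i0‖ ≤ r * 1 := mul_le_mul_of_nonneg_left (norm_entry_le S i0 i0) h0
      linarith
    have h := (hasSum_choose_mul_geometric_of_norm_lt_one m hlt).mul_left (conj (S.1 i0 i0) ^ j)
    rw [← h.tsum_eq]
    refine tsum_congr fun n => ?_
    simp only [hF]
    rw [mul_pow]
    ring
  simp only [htsum] at hS
  have hterm : ∀ n, n ≠ j → ∫ S, F n S ∂μ = 0 := by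
    intro n hn
    simp only [hF]
    rw [integral_const_mul, moment_eq_zero hμ hne (Ne.symm hn), mul_zero]
  have hS2 : HasSum (fun n => ∫ S, F n S ∂μ) (∫ S, F j S ∂μ) := hasSum_single j hterm
  rw [hS.unique hS2]
  simp only [hF]
  rw [integral_const_mul]
  simp only [conj_mul_self_pow]

/-- The regularised factor is an average of the hypergeometric polynomial. -/
theorem integral_factor_r {μ : Measure (SymU ι)} [IsProbabilityMeasure μ] (hμ : DInv μ)
    {i0 i1 : ι} (hne : i0 ≠ i1) {r : ℝ} (h0 : 0 ≤ r) (h1 : r < 1) (m : ℕ) :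
    ∫ S, ((1 - (r : ℂ) * conj (S.1 i0 i0)) / (1 - (r : ℂ) * S.1 i0 i0)) ^ (m + 1) ∂μ =
      ((∫ S, (Qp m).eval (r ^ 2 * ‖S.1 i0 i0‖ ^ 2) ∂μ : ℝ) : ℂ) := by
  have hs : Continuous (fun S : SymU ι => S.1 i0 i0) := continuous_entry _ _
  have hexp : ∀ S : SymU ι,
      ((1 - (r : ℂ) * conj (S.1 i0 i0)) / (1 - (r : ℂ) * S.1 i0 i0)) ^ (m + 1) =
      ∑ j ∈ Finset.range (m + 2), ((m + 1).choose j : ℂ) * (-(r : ℂ)) ^ j *
        (conj (S.1 i0 i0) ^ j * (1 / (1 - (r : ℂ) * S.1 i0 i0) ^ (m + 1))) := by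
    intro S
    rw [div_pow, sub_eq_neg_add, add_pow]
    simp only [one_pow, mul_one]
    rw [Finset.sum_div]
    refine Finset.sum_congr rfl fun j _ => ?_
    rw [show -((r : ℂ) * conj (S.1 i0 i0)) = (-(r : ℂ)) * conj (S.1 i0 i0) from by ring, mul_pow]
    ring
  have hint : ∀ j, Integrable (fun S : SymU ι => ((m + 1).choose j : ℂ) * (-(r : ℂ)) ^ j *
        (conj (S.1 i0 i0) ^ j * (1 / (1 - (r : ℂ) * S.1 i0 i0) ^ (m + 1)))) μ := by
    intro j
    refine integrable_of_continuous ?_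
    refine continuous_const.mul (((Complex.continuous_conj.comp hs).pow j).mul ?_)
    refine continuous_const.div ((continuous_const.sub (continuous_const.mul hs)).pow _) ?_
    intro S
    exact pow_ne_zero _ (one_sub_ne h0 h1 (norm_entry_le S i0 i0))
  simp only [hexp]
  rw [integral_finsetSum _ fun j _ => hint j]
  have h2 : ∀ j, ∫ S : SymU ι, ((m + 1).choose j : ℂ) * (-(r : ℂ)) ^ j *
        (conj (S.1 i0 i0) ^ j * (1 / (1 - (r : ℂ) * S.1 i0 i0) ^ (m + 1))) ∂μ =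
      ((∫ S, qc m j * (r ^ 2 * ‖S.1 i0 i0‖ ^ 2) ^ j ∂μ : ℝ) : ℂ) := by
    intro j
    rw [integral_const_mul, integral_conj_pow_mul_inv hμ hne h0 h1]
    have h3 : ∀ S : SymU ι, ((‖S.1 i0 i0‖ ^ 2 : ℝ) : ℂ) ^ j = (((‖S.1 i0 i0‖ ^ 2) ^ j : ℝ) : ℂ) := by
      intro S
      push_cast
      rfl
    simp only [h3]
    rw [integral_complex_ofReal]
    have h4 : ∫ S, qc m j * (r ^ 2 * ‖S.1 i0 i0‖ ^ 2) ^ j ∂μ =
        qc m j * r ^ (2 * j) * ∫ S, (‖S.1 i0 i0‖ ^ 2) ^ j ∂μ := by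
      rw [← integral_const_mul]
      refine integral_congr_ae (Filter.Eventually.of_forall fun S => ?_)
      simp only [mul_pow, pow_mul]
      ring
    rw [h4, qc]
    push_cast
    rw [neg_pow, pow_mul]
    ring
  simp only [h2]
  rw [← Complex.ofReal_sum, ← integral_finsetSum]
  · simp only [eval_Qp]
  · intro j _
    refine integrable_of_continuous ?_
    exact continuous_const.mul ((continuous_const.mul (hs.norm.pow 2)).pow j)

theorem norm_factor {r : ℝ} {s : ℂ} (h : 1 - (r : ℂ) * s ≠ 0) (k : ℕ) :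
    ‖((1 - (r : ℂ) * conj s) / (1 - (r : ℂ) * s)) ^ k‖ = 1 := by
  have h1 : (1 - (r : ℂ) * conj s) = conj (1 - (r : ℂ) * s) := by
    simp
  rw [norm_pow, norm_div, h1, Complex.norm_conj, div_self (norm_ne_zero_iff.mpr h), one_pow]

theorem norm_factor_le (s : ℂ) (k : ℕ) : ‖((1 - conj s) / (1 - s)) ^ k‖ ≤ 1 := by
  rw [norm_pow]
  refine pow_le_one₀ (norm_nonneg _) ?_
  have h1 : (1 - conj s) = conj (1 - s) := by simp
  rw [norm_div, h1, Complex.norm_conj]
  exact div_self_le_one _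

theorem measurable_factor (k : ℕ) : Measurable (fun s : ℂ => ((1 - conj s) / (1 - s)) ^ k) := by
  have hc : Measurable (fun s : ℂ => conj s) := Complex.continuous_conj.measurable
  exact ((measurable_const.sub hc).div (measurable_const.sub measurable_id)).pow_const k

/-- The bound for the factor. -/
theorem norm_integral_factor_le {μ : Measure (SymU ι)} [IsProbabilityMeasure μ] (hμ : DInv μ)
    {i0 i1 : ι} (hne : i0 ≠ i1) (m : ℕ) {c : ℝ}
    (hc : ∀ x : ℝ, 0 ≤ x → x ≤ 1 → |(Qp m).eval x| ≤ 1 - c * x) :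
    ‖∫ S, ((1 - conj (S.1 i0 i0)) / (1 - S.1 i0 i0)) ^ (m + 1) ∂μ‖ ≤
      1 - c * ∫ S, ‖S.1 i0 i0‖ ^ 2 ∂μ := by
  have hs : Continuous (fun S : SymU ι => S.1 i0 i0) := continuous_entry _ _
  set ρ : ℕ → ℝ := fun n => (n : ℝ) / (n + 1) with hρ
  have hρ0 : ∀ n, 0 ≤ ρ n := fun n => by positivity
  have hρ1 : ∀ n, ρ n < 1 := by
    intro n
    simp only [hρ]
    rw [div_lt_one (by positivity)]
    linarith
  have hρlim : Filter.Tendsto ρ Filter.atTop (𝓝 1) := tendsto_natCast_div_add_atTop (1 : ℝ)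
  have hconv : Filter.Tendsto (fun n => ∫ S, ((1 - (ρ n : ℂ) * conj (S.1 i0 i0)) /
      (1 - (ρ n : ℂ) * S.1 i0 i0)) ^ (m + 1) ∂μ) Filter.atTop
      (𝓝 (∫ S, ((1 - conj (S.1 i0 i0)) / (1 - S.1 i0 i0)) ^ (m + 1) ∂μ)) := by
    refine tendsto_integral_of_dominated_convergence (fun _ => (1 : ℝ)) ?_ (integrable_const _)
      ?_ ?_
    · intro n
      refine Continuous.aestronglyMeasurable ?_
      refine Continuous.pow ?_ _
      refine (continuous_const.sub (continuous_const.mul (Complex.continuous_conj.comp hs))).div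
        (continuous_const.sub (continuous_const.mul hs)) ?_
      intro S
      exact one_sub_ne (hρ0 n) (hρ1 n) (norm_entry_le S i0 i0)
    · intro n
      refine Filter.Eventually.of_forall fun S => ?_
      exact (norm_factor (one_sub_ne (hρ0 n) (hρ1 n) (norm_entry_le S i0 i0)) _).le
    · have hae : ∀ᵐ S ∂μ, S.1 i0 i0 ≠ 1 := by
        rw [ae_iff]
        simp only [ne_eq, not_not]
        exact measure_entry_eq hμ hne one_ne_zero
      filter_upwards [hae] with S hS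
      have hl : Filter.Tendsto (fun n => (ρ n : ℂ)) Filter.atTop (𝓝 ((1 : ℝ) : ℂ)) :=
        (Complex.continuous_ofReal.tendsto 1).comp hρlim
      rw [Complex.ofReal_one] at hl
      have h1 := (tendsto_const_nhds (x := (1 : ℂ))).sub
        (hl.mul (tendsto_const_nhds (x := conj (S.1 i0 i0))))
      have h2 := (tendsto_const_nhds (x := (1 : ℂ))).sub
        (hl.mul (tendsto_const_nhds (x := S.1 i0 i0)))
      rw [one_mul] at h1 h2
      exact (h1.div h2 (sub_ne_zero.mpr (Ne.symm hS))).pow _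
  have hbd : ∀ n, ‖∫ S, ((1 - (ρ n : ℂ) * conj (S.1 i0 i0)) /
      (1 - (ρ n : ℂ) * S.1 i0 i0)) ^ (m + 1) ∂μ‖ ≤
      1 - c * ((ρ n) ^ 2 * ∫ S, ‖S.1 i0 i0‖ ^ 2 ∂μ) := by
    intro n
    rw [integral_factor_r hμ hne (hρ0 n) (hρ1 n), Complex.norm_real, Real.norm_eq_abs]
    refine abs_integral_le_integral_abs.trans ?_
    have hQc : Continuous (fun S : SymU ι => |(Qp m).eval (ρ n ^ 2 * ‖S.1 i0 i0‖ ^ 2)|) :=
      ((Qp m).continuous.comp (continuous_const.mul (hs.norm.pow 2))).abs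
    have h2 : Continuous (fun S : SymU ι => 1 - c * (ρ n ^ 2 * ‖S.1 i0 i0‖ ^ 2)) :=
      continuous_const.sub (continuous_const.mul (continuous_const.mul (hs.norm.pow 2)))
    calc ∫ S, |(Qp m).eval (ρ n ^ 2 * ‖S.1 i0 i0‖ ^ 2)| ∂μ
        ≤ ∫ S, (1 - c * (ρ n ^ 2 * ‖S.1 i0 i0‖ ^ 2)) ∂μ := by
          refine integral_mono (integrable_of_continuous hQc) (integrable_of_continuous h2) ?_
          intro S
          refine hc _ (by positivity) ?_
          have h3 := norm_entry_le S i0 i0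
          have h4 : ρ n ^ 2 ≤ 1 := pow_le_one₀ (hρ0 n) (hρ1 n).le
          have h5 : ‖S.1 i0 i0‖ ^ 2 ≤ 1 := pow_le_one₀ (norm_nonneg _) h3
          exact mul_le_one₀ h4 (by positivity) h5
      _ = 1 - c * (ρ n ^ 2 * ∫ S, ‖S.1 i0 i0‖ ^ 2 ∂μ) := by
          have hi : Integrable (fun S : SymU ι => c * (ρ n ^ 2 * ‖S.1 i0 i0‖ ^ 2)) μ :=
            integrable_of_continuous
              (continuous_const.mul (continuous_const.mul (hs.norm.pow 2)))
          rw [integral_sub (integrable_const _) hi, integral_const_mul, integral_const_mul]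
          simp
  have hlim2 : Filter.Tendsto (fun n => 1 - c * ((ρ n) ^ 2 * ∫ S, ‖S.1 i0 i0‖ ^ 2 ∂μ))
      Filter.atTop (𝓝 (1 - c * (1 ^ 2 * ∫ S, ‖S.1 i0 i0‖ ^ 2 ∂μ))) :=
    tendsto_const_nhds.sub (tendsto_const_nhds.mul ((hρlim.pow 2).mul tendsto_const_nhds))
  rw [one_pow, one_mul] at hlim2
  exact le_of_tendsto_of_tendsto' hconv.norm hlim2 hbd

end Vale.Agent.P156.F
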