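import Vale.Agent.P156.F.KAK

/-! Averaging over the special unitary group: under an `SU`-invariant law the determinant and
the entry `S 0 0` are independent. -/

open Matrix MeasureTheory Topology
open scoped ComplexConjugate

namespace Vale.Agent.P156.F

open MeasureTheory.Measure in
theorem exists_haar_prob (G : Type) [Group G] [TopologicalSpace G] [IsTopologicalGroup G]
    [CompactSpace G] [MeasurableSpace G] [BorelSpace G] :
    ∃ H : Measure G, IsProbabilityMeasure H ∧ IsMulLeftInvariant H ∧ IsMulRightInvariant H := by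
  let K : TopologicalSpace.PositiveCompacts G := ⊤
  have hp : IsProbabilityMeasure (haarMeasure K) := ⟨by
    have h := haarMeasure_self (K₀ := K)
    have h2 : (K : Set G) = Set.univ := TopologicalSpace.PositiveCompacts.coe_top
    rw [← h2]
    exact h⟩
  refine ⟨haarMeasure K, hp, inferInstance, ⟨fun g => ?_⟩⟩
  have h1 : IsProbabilityMeasure ((haarMeasure K).map (· * g)) :=
    isProbabilityMeasure_map (measurable_mul_const g).aemeasurable
  exact isHaarMeasure_eq_of_isProbabilityMeasure _ _

variable {ι : Type} [Fintype ι] [DecidableEq ι]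

/-- The special unitary group, as a subgroup of the unitary group. -/
noncomputable def SUG (ι : Type) [Fintype ι] [DecidableEq ι] : Subgroup (unitaryGroup ι ℂ) :=
  (Matrix.detMonoidHom.comp (unitaryGroup ι ℂ).subtype).ker

theorem mem_SUG {g : unitaryGroup ι ℂ} : g ∈ SUG ι ↔ g.1.det = 1 := by
  rw [SUG, MonoidHom.mem_ker]
  rfl

theorem isClosed_SUG : IsClosed (SUG ι : Set (unitaryGroup ι ℂ)) := by
  have h : (SUG ι : Set (unitaryGroup ι ℂ)) = {g | g.1.det = 1} := by
    ext g
    exact mem_SUG
  rw [h]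
  exact isClosed_eq continuous_subtype_val.matrix_det continuous_const

instance : CompactSpace (SUG ι) :=
  isCompact_iff_compactSpace.mp isClosed_SUG.isCompact

/-- Haar probability measure on `SU`. -/
noncomputable def haarSU (ι : Type) [Fintype ι] [DecidableEq ι] : Measure (SUG ι) :=
  (exists_haar_prob (SUG ι)).choose

instance : IsProbabilityMeasure (haarSU ι) := (exists_haar_prob (SUG ι)).choose_spec.1
instance : (haarSU ι).IsMulLeftInvariant := (exists_haar_prob (SUG ι)).choose_spec.2.1
instance : (haarSU ι).IsMulRightInvariant := (exists_haar_prob (SUG ι)).choose_spec.2.2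

/-- The average of a function over the `SU`-orbits. -/
noncomputable def avg (f : SymU ι → ℂ) (S : SymU ι) : ℂ := ∫ g : SUG ι, f (g.1 • S) ∂(haarSU ι)

theorem avg_smul (f : SymU ι → ℂ) {h : unitaryGroup ι ℂ} (hh : h.1.det = 1) (S : SymU ι) :
    avg f (h • S) = avg f S := by
  have := integral_mul_right_eq_self (μ := haarSU ι) (fun g : SUG ι => f (g.1 • S))
    ⟨h, mem_SUG.mpr hh⟩
  unfold avg
  rw [← this]
  refine integral_congr_ae (Filter.Eventually.of_forall fun g => ?_)
  change f (g.1 • h • S) = f ((g.1 * h) • S)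
  rw [mul_smul]

theorem avg_comp_smul (f : SymU ι → ℂ) {h : unitaryGroup ι ℂ} (hh : h.1.det = 1) (S : SymU ι) :
    avg (fun T => f (h • T)) S = avg f S := by
  have := integral_mul_left_eq_self (μ := haarSU ι) (fun g : SUG ι => f (g.1 • S))
    ⟨h, mem_SUG.mpr hh⟩
  unfold avg
  rw [← this]
  refine integral_congr_ae (Filter.Eventually.of_forall fun g => ?_)
  change f (h • g.1 • S) = f ((h * g.1) • S)
  rw [mul_smul]

theorem avg_eq_of_det [Nonempty ι] (f : SymU ι → ℂ) {S T : SymU ι} (h : S.1.det = T.1.det) :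
    avg f S = avg f T := by
  obtain ⟨g, hg, rfl⟩ := exists_smul_eq S T h
  exact (avg_smul f hg S).symm

theorem measurable_act : Measurable (fun p : SymU ι × SUG ι => p.2.1 • p.1) := by
  have h : Continuous (fun p : SymU ι × SUG ι => p.2.1 • p.1) :=
    (continuous_subtype_val.comp continuous_snd).smul continuous_fst
  exact h.measurable

theorem integral_avg {μ : Measure (SymU ι)} [IsProbabilityMeasure μ] (hμ : SUInv μ)
    {f : SymU ι → ℂ} (hf : Measurable f) {C : ℝ} (hC : ∀ S, ‖f S‖ ≤ C) :
    ∫ S, avg f S ∂μ = ∫ S, f S ∂μ := by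
  unfold avg
  rw [integral_integral_swap]
  · have h : ∀ g : SUG ι, ∫ S, f (g.1 • S) ∂μ = ∫ S, f S ∂μ := by
      intro g
      have h1 : μ.map (fun S => g.1 • S) = μ := hμ g.1 (mem_SUG.mp g.2)
      conv_rhs => rw [← h1]
      rw [integral_map (measurable_smul g.1).aemeasurable hf.aestronglyMeasurable]
    simp only [h, integral_const, probReal_univ, one_smul]
  · refine Integrable.of_bound (C := C) ?_ (Filter.Eventually.of_forall fun p => hC _)
    exact (hf.comp measurable_act).aestronglyMeasurable

theorem integral_det_mul_avg {μ : Measure (SymU ι)} [IsProbabilityMeasure μ] (hμ : SUInv μ)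
    {f : SymU ι → ℂ} (hf : Measurable f) {C : ℝ} (hC : ∀ S, ‖f S‖ ≤ C)
    {u : ℂ → ℂ} (hu : Measurable u) {B : ℝ} (hB : ∀ z, ‖z‖ = 1 → ‖u z‖ ≤ B) :
    ∫ S, u S.1.det * f S ∂μ = ∫ S, u S.1.det * avg f S ∂μ := by
  have hB0 : 0 ≤ B := (norm_nonneg _).trans (hB 1 (by simp))
  have h := integral_avg hμ (f := fun S => u S.1.det * f S)
    ((hu.comp continuous_det_symU.measurable).mul hf) (C := B * C) (fun S => by
      rw [norm_mul]
      exact mul_le_mul (hB _ (norm_det_symU S)) (hC S) (norm_nonneg _) hB0)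
  rw [← h]
  refine integral_congr_ae (Filter.Eventually.of_forall fun S => ?_)
  unfold avg
  change ∫ g : SUG ι, u (g.1 • S).1.det * f (g.1 • S) ∂(haarSU ι) =
    u S.1.det * ∫ g : SUG ι, f (g.1 • S) ∂(haarSU ι)
  rw [← integral_const_mul]
  refine integral_congr_ae (Filter.Eventually.of_forall fun g => ?_)
  change u (g.1 • S).1.det * f (g.1 • S) = u S.1.det * f (g.1 • S)
  rw [det_smul_SymU, mem_SUG.mp g.2, one_pow, one_mul]

/-- For a function of one diagonal entry the average is constant. -/
theorem avg_entry_const {i0 i1 : ι} (hne : i0 ≠ i1) (P : ℂ → ℂ) (S T : SymU ι) :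
    avg (fun S => P (S.1 i0 i0)) S = avg (fun S => P (S.1 i0 i0)) T := by
  classical
  have : Nonempty ι := ⟨i0⟩
  have hcard : 0 < Fintype.card ι := Fintype.card_pos
  -- a scalar `z` with `z^(2 t) det S = det T`
  obtain ⟨z, hz⟩ := IsAlgClosed.exists_pow_nat_eq (T.1.det / S.1.det)
    (n := 2 * Fintype.card ι) (by omega)
  have hS0 : S.1.det ≠ 0 := by
    intro h
    have := norm_det_symU S
    rw [h, norm_zero] at this
    exact zero_ne_one this
  have hz1 : ‖z‖ = 1 := by
    have h1 : ‖z‖ ^ (2 * Fintype.card ι) = 1 := by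
      rw [← norm_pow, hz, norm_div, norm_det_symU, norm_det_symU, div_one]
    exact (pow_eq_one_iff_of_nonneg (norm_nonneg z) (by omega)).mp h1
  have hz0 : z ≠ 0 := by
    intro h
    rw [h, norm_zero] at hz1
    exact zero_ne_one hz1
  have hc : ∀ _ : ι, ‖z‖ = 1 := fun _ => hz1
  have hdet : (diagU (fun _ : ι => z) hc • S : SymU ι).1.det = T.1.det := by
    rw [det_smul_SymU, coe_diagU, det_diagonal, Finset.prod_const, Finset.card_univ, ← pow_mul,
      mul_comm (Fintype.card ι) 2, hz, div_mul_cancel₀ _ hS0]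
  rw [← avg_eq_of_det _ hdet]
  -- the diagonal matrix in `SU` with the same effect on the entry
  have hd : ∀ i, ‖Function.update (Function.update (fun _ : ι => (1 : ℂ)) i1 z⁻¹) i0 z i‖ = 1 := by
    intro i
    by_cases hi : i = i0
    · subst hi; rw [Function.update_self, hz1]
    · rw [Function.update_of_ne hi]
      by_cases hi' : i = i1
      · subst hi'; rw [Function.update_self, norm_inv, hz1, inv_one]
      · rw [Function.update_of_ne hi', norm_one]
  have hdd : (diagU _ hd).1.det = 1 := by
    rw [coe_diagU, det_diagonal, Finset.prod_update_of_mem (Finset.mem_univ i0),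
      Finset.prod_update_of_mem (by simp [Ne.symm hne])]
    simp [hz0]
  have h1 := avg_comp_smul (fun S => P (S.1 i0 i0)) hdd S
  rw [← h1]
  unfold avg
  refine integral_congr_ae (Filter.Eventually.of_forall fun g => ?_)
  change P ((diagU _ hd • (g.1 • S) : SymU ι).1 i0 i0) =
    P ((g.1 • (diagU (fun _ : ι => z) hc • S) : SymU ι).1 i0 i0)
  congr 1
  have h2 : (g.1 • (diagU (fun _ : ι => z) hc • S) : SymU ι) =
      diagU (fun _ : ι => z) hc • (g.1 • S) := by
    rw [← mul_smul, ← mul_smul]
    congr 1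
    apply Subtype.ext
    change g.1.1 * diagonal (fun _ => z) = diagonal (fun _ => z) * g.1.1
    rw [show diagonal (fun _ : ι => z) = z • (1 : Matrix ι ι ℂ) from (smul_one_eq_diagonal z).symm,
      Matrix.mul_smul, Matrix.smul_mul, Matrix.mul_one, Matrix.one_mul]
  rw [h2, diagU_smul_apply, diagU_smul_apply, Function.update_self]

/-- Independence of the determinant and one diagonal entry; the law of the entry does not
depend on the invariant law. -/
theorem exists_entry_const {i0 i1 : ι} (hne : i0 ≠ i1) {P : ℂ → ℂ} (hP : Measurable P)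
    {C : ℝ} (hC : ∀ z, ‖P z‖ ≤ C) :
    ∃ c : ℂ, ∀ (μ : Measure (SymU ι)) [IsProbabilityMeasure μ], SUInv μ →
      ∀ {u : ℂ → ℂ}, Measurable u → ∀ {B : ℝ}, (∀ z, ‖z‖ = 1 → ‖u z‖ ≤ B) →
      ∫ S, u S.1.det * P (S.1 i0 i0) ∂μ = (∫ S, u S.1.det ∂μ) * c := by
  refine ⟨avg (fun S => P (S.1 i0 i0)) ⟨1, one_mem _, transpose_one⟩, ?_⟩
  intro μ _ hμ u hu B hB
  rw [integral_det_mul_avg hμ (f := fun S => P (S.1 i0 i0))
    (hP.comp (continuous_entry i0 i0).measurable) (fun S => hC _) hu hB, ← integral_mul_const]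
  refine integral_congr_ae (Filter.Eventually.of_forall fun S => ?_)
  change u S.1.det * avg (fun S => P (S.1 i0 i0)) S = _
  rw [avg_entry_const hne P S ⟨1, one_mem _, transpose_one⟩]

end Vale.Agent.P156.F
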