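import Vale.Agent.P156.F.Diag

/-! Invariance under real orthogonal and diagonal matrices gives invariance under `SU`;
transitivity of `SU` on the fibres of the determinant. -/

open Matrix MeasureTheory Topology
open scoped ComplexConjugate

namespace Vale.Agent.P156.F

variable {ι : Type} [Fintype ι] [DecidableEq ι]

/-- A diagonal unitary matrix. -/
noncomputable def diagU (e : ι → ℂ) (he : ∀ i, ‖e i‖ = 1) : unitaryGroup ι ℂ :=
  ⟨diagonal e, by
    rw [mem_unitaryGroup_iff, star_eq_conjTranspose, diagonal_conjTranspose,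
      diagonal_mul_diagonal, ← diagonal_one]
    congr 1
    ext1 i
    change e i * conj (e i) = 1
    rw [Complex.mul_conj, Complex.normSq_eq_norm_sq, he i]
    simp⟩

theorem coe_diagU (e : ι → ℂ) (he : ∀ i, ‖e i‖ = 1) :
    (diagU e he : Matrix ι ι ℂ) = diagonal e := rfl

theorem exists_sqrt {z : ℂ} (hz : ‖z‖ = 1) : ∃ w : ℂ, w ^ 2 = z ∧ ‖w‖ = 1 := by
  obtain ⟨w, hw⟩ := IsAlgClosed.exists_pow_nat_eq z (n := 2) (by norm_num)
  refine ⟨w, hw, ?_⟩
  have h : ‖w‖ ^ 2 = 1 := by rw [← norm_pow, hw, hz]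
  nlinarith [norm_nonneg w]

theorem norm_det_unitary (U : unitaryGroup ι ℂ) : ‖U.1.det‖ = 1 := by
  have h := (det_of_mem_unitary U.2)
  exact CStarRing.norm_of_mem_unitary h

theorem IsReal.transpose_mul_self {O : unitaryGroup ι ℂ} (hO : IsReal O) : O.1ᵀ * O.1 = 1 := by
  have h : star O.1 * O.1 = 1 := mem_unitaryGroup_iff'.mp O.2
  have h2 : star O.1 = O.1ᵀ := by
    ext i j
    rw [star_apply, transpose_apply, RCLike.star_def, Complex.conj_eq_iff_im]
    exact hO j i
  rw [← h2]
  exact h

theorem IsReal.mul_transpose_self {O : unitaryGroup ι ℂ} (hO : IsReal O) : O.1 * O.1ᵀ = 1 := by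
  have h : O.1 * star O.1 = 1 := mem_unitaryGroup_iff.mp O.2
  have h2 : star O.1 = O.1ᵀ := by
    ext i j
    rw [star_apply, transpose_apply, RCLike.star_def, Complex.conj_eq_iff_im]
    exact hO j i
  rw [← h2]
  exact h

theorem IsReal.det_sq {O : unitaryGroup ι ℂ} (hO : IsReal O) : O.1.det ^ 2 = 1 := by
  have h := congrArg Matrix.det hO.transpose_mul_self
  rw [det_mul, det_transpose, det_one] at h
  rw [pow_two]
  exact h

theorem isReal_of_mul_transpose {K : unitaryGroup ι ℂ} (h : K.1 * K.1ᵀ = 1) : IsReal K := by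
  have h1 : star K.1 * K.1 = 1 := mem_unitaryGroup_iff'.mp K.2
  have h2 : K.1ᵀ = star K.1 := by
    calc K.1ᵀ = (star K.1 * K.1) * K.1ᵀ := by rw [h1, Matrix.one_mul]
      _ = star K.1 * (K.1 * K.1ᵀ) := by rw [Matrix.mul_assoc]
      _ = star K.1 := by rw [h, Matrix.mul_one]
  intro i j
  have h3 := congrFun (congrFun h2 j) i
  rw [transpose_apply, star_apply, RCLike.star_def] at h3
  rw [← Complex.conj_eq_iff_im]
  exact h3.symm

/-- a symmetric unitary matrix is `O E² Oᵀ`, with a prescribed sign of `det E`. -/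
theorem exists_real_diag_sq [Nonempty ι] {S : Matrix ι ι ℂ} (hS : S ∈ symU ι) {w : ℂ}
    (hw : w ^ 2 = S.det) :
    ∃ (O : unitaryGroup ι ℂ) (e : ι → ℂ) (_ : ∀ i, ‖e i‖ = 1), IsReal O ∧ ∏ i, e i = w ∧
      S = O.1 * diagonal e * (O.1 * diagonal e)ᵀ := by
  obtain ⟨O, d, hO, hd, hSd⟩ := exists_real_diag hS
  choose e he hen using fun i => exists_sqrt (hd i)
  have hdet : S.det = ∏ i, d i := by
    rw [hSd, det_mul, det_mul, det_transpose, det_diagonal]
    have := hO.det_sq
    linear_combination (∏ i, d i) * this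
  have hprod : (∏ i, e i) ^ 2 = w ^ 2 := by
    rw [hw, hdet, ← Finset.prod_pow]
    exact Finset.prod_congr rfl fun i _ => he i
  have hcase := (sq_eq_sq_iff_eq_or_eq_neg.mp hprod)
  have hfact : ∀ e : ι → ℂ, (∀ i, e i ^ 2 = d i) →
      S = O.1 * diagonal e * (O.1 * diagonal e)ᵀ := by
    intro e he
    rw [transpose_mul, diagonal_transpose, Matrix.mul_assoc, ← Matrix.mul_assoc (diagonal e),
      diagonal_mul_diagonal, hSd, Matrix.mul_assoc]
    congr 3
    ext1 i
    rw [← he i, pow_two]
  rcases hcase with h | h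
  · exact ⟨O, e, hen, hO, h, hfact e he⟩
  · obtain ⟨i0⟩ := ‹Nonempty ι›
    refine ⟨O, Function.update e i0 (-(e i0)), ?_, hO, ?_, hfact _ ?_⟩
    · intro i
      by_cases hi : i = i0
      · subst hi
        rw [Function.update_self, norm_neg, hen]
      · rw [Function.update_of_ne hi, hen]
    · rw [← Finset.mul_prod_erase Finset.univ _ (Finset.mem_univ i0), Function.update_self]
      rw [← Finset.mul_prod_erase Finset.univ _ (Finset.mem_univ i0)] at h
      have : ∏ x ∈ Finset.univ.erase i0, Function.update e i0 (-e i0) x =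
          ∏ x ∈ Finset.univ.erase i0, e x := by
        refine Finset.prod_congr rfl fun x hx => ?_
        rw [Function.update_of_ne (Finset.ne_of_mem_erase hx)]
      rw [this]
      linear_combination -h
    · intro i
      by_cases hi : i = i0
      · subst hi
        rw [Function.update_self, neg_sq, he]
      · rw [Function.update_of_ne hi, he]

theorem exists_OEK (U : unitaryGroup ι ℂ) (hU : U.1.det = 1) :
    ∃ O E K : unitaryGroup ι ℂ, IsReal O ∧ IsReal K ∧ E.1.IsDiag ∧ E.1.det = 1 ∧
      U = O * E * K := by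
  rcases isEmpty_or_nonempty ι with hι | hι
  · refine ⟨1, 1, 1, ?_, ?_, ?_, ?_, ?_⟩
    · intro i; exact isEmptyElim i
    · intro i; exact isEmptyElim i
    · intro i; exact isEmptyElim i
    · exact det_isEmpty
    · apply Subtype.ext
      ext i
      exact isEmptyElim i
  have hS : U.1 * U.1ᵀ ∈ symU ι := by
    refine ⟨mul_mem U.2 (transpose_mem_unitaryGroup U.2), ?_⟩
    rw [transpose_mul, transpose_transpose]
  have hdet : (1 : ℂ) ^ 2 = (U.1 * U.1ᵀ).det := by
    rw [det_mul, det_transpose, hU]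
    norm_num
  obtain ⟨O, e, he, hO, hprod, hfac⟩ := exists_real_diag_sq hS hdet
  have hE : (diagU e he).1 = diagonal e := rfl
  refine ⟨O, diagU e he, (O * diagU e he)⁻¹ * U, hO, ?_, ?_, ?_, ?_⟩
  · apply isReal_of_mul_transpose
    have h1 : ((O * diagU e he)⁻¹ * U : unitaryGroup ι ℂ).1 = ((O * diagU e he)⁻¹).1 * U.1 := rfl
    have h2 : ((O * diagU e he)⁻¹).1 * (O.1 * diagonal e) = 1 := by
      have h := congrArg Subtype.val (inv_mul_cancel (O * diagU e he))
      exact h
    rw [h1, transpose_mul, Matrix.mul_assoc, ← Matrix.mul_assoc U.1, hfac, transpose_mul,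
      Matrix.mul_assoc (O.1 * diagonal e), ← Matrix.mul_assoc]
    rw [h2, Matrix.one_mul, ← transpose_mul, ← transpose_mul, h2, transpose_one]
  · rw [hE]
    exact isDiag_diagonal e
  · rw [hE, det_diagonal, hprod]
  · rw [mul_inv_cancel_left]

/-- Orthogonal invariance and invariance under diagonal matrices of determinant one give
invariance under the special unitary group. -/
theorem SUInv.of {μ : Measure (SymU ι)} (hO : OInv μ) (hD : DInv μ) : SUInv μ := by
  intro U hU
  obtain ⟨O, E, K, hOr, hKr, hEd, hEdet, rfl⟩ := exists_OEK U hU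
  exact ((hO O hOr).mul (hD E hEd hEdet)).mul (hO K hKr)

theorem exists_factor [Nonempty ι] {S : Matrix ι ι ℂ} (hS : S ∈ symU ι) {w : ℂ}
    (hw : w ^ 2 = S.det) :
    ∃ U : unitaryGroup ι ℂ, U.1.det = w ∧ S = U.1 * U.1ᵀ := by
  obtain ⟨O, e, he, hO, hprod, hfac⟩ := exists_real_diag_sq hS hw
  have hdet : (O * diagU e he : unitaryGroup ι ℂ).1.det = O.1.det * w := by
    change (O.1 * diagonal e).det = _
    rw [det_mul, det_diagonal, hprod]
  have hsq : O.1.det = 1 ∨ O.1.det = -1 := by
    rw [← sq_eq_one_iff]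
    exact hO.det_sq
  rcases hsq with h | h
  · refine ⟨O * diagU e he, ?_, hfac⟩
    rw [hdet, h, one_mul]
  · obtain ⟨i0⟩ := ‹Nonempty ι›
    have hf : ∀ i, ‖Function.update (fun _ : ι => (1 : ℂ)) i0 (-1) i‖ = 1 := by
      intro i
      by_cases hi : i = i0
      · subst hi; simp
      · rw [Function.update_of_ne hi]; simp
    refine ⟨O * diagU e he * diagU _ hf, ?_, ?_⟩
    · change ((O * diagU e he : unitaryGroup ι ℂ).1 * diagonal _).det = _
      rw [det_mul, hdet, det_diagonal, h, Finset.prod_update_of_mem (Finset.mem_univ i0)]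
      simp
    · change S = (O.1 * diagonal e) * diagonal _ * ((O.1 * diagonal e) * diagonal _)ᵀ
      rw [transpose_mul (O.1 * diagonal e), diagonal_transpose, Matrix.mul_assoc,
        ← Matrix.mul_assoc (diagonal _) (diagonal _), diagonal_mul_diagonal]
      have : (fun i => Function.update (fun _ : ι => (1 : ℂ)) i0 (-1) i *
          Function.update (fun _ : ι => (1 : ℂ)) i0 (-1) i) = fun _ => 1 := by
        ext1 i
        by_cases hi : i = i0
        · subst hi; simp
        · rw [Function.update_of_ne hi]; simp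
      rw [this, show diagonal (fun _ : ι => (1 : ℂ)) = 1 from diagonal_one, Matrix.one_mul]
      exact hfac

/-- `SU` acts transitively on the fibres of the determinant. -/
theorem exists_smul_eq [Nonempty ι] (S T : SymU ι) (h : S.1.det = T.1.det) :
    ∃ g : unitaryGroup ι ℂ, g.1.det = 1 ∧ g • S = T := by
  obtain ⟨w, hw⟩ := IsAlgClosed.exists_pow_nat_eq S.1.det (n := 2) (by norm_num)
  obtain ⟨U, hU, hSU⟩ := exists_factor S.2 hw
  obtain ⟨V, hV, hTV⟩ := exists_factor T.2 (hw.trans h)
  have hUU : U.1 * (U⁻¹).1 = 1 := congrArg Subtype.val (mul_inv_cancel U)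
  have hUU' : (U⁻¹).1 * U.1 = 1 := congrArg Subtype.val (inv_mul_cancel U)
  refine ⟨V * U⁻¹, ?_, ?_⟩
  · change (V.1 * (U⁻¹).1).det = 1
    have h1 := congrArg Matrix.det hUU
    rw [det_mul, det_one, hU] at h1
    rw [det_mul, hV, h1]
  · apply Subtype.ext
    rw [mul_smul, coe_smul, coe_smul, hSU, hTV, ← Matrix.mul_assoc ((U⁻¹).1), hUU',
      Matrix.one_mul, ← transpose_mul, hUU', transpose_one, Matrix.mul_one]

theorem norm_det_symU (S : SymU ι) : ‖S.1.det‖ = 1 := norm_det_unitary ⟨S.1, S.2.1⟩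

theorem det_smul_SymU (g : unitaryGroup ι ℂ) (S : SymU ι) :
    (g • S : SymU ι).1.det = g.1.det ^ 2 * S.1.det := by
  rw [coe_smul, det_mul, det_mul, det_transpose]
  ring

theorem diagU_smul_apply (e : ι → ℂ) (he : ∀ i, ‖e i‖ = 1) (S : SymU ι) (i j : ι) :
    (diagU e he • S : SymU ι).1 i j = e i * S.1 i j * e j := by
  change (diagonal e * S.1 * (diagonal e)ᵀ) i j = _
  rw [diagonal_transpose, mul_diagonal, diagonal_mul]

theorem continuous_det_symU : Continuous (fun S : SymU ι => S.1.det) :=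
  continuous_subtype_val.matrix_det

theorem continuous_entry (i j : ι) : Continuous (fun S : SymU ι => S.1 i j) :=
  continuous_subtype_val.matrix_elem i j

end Vale.Agent.P156.F
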