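import Vale.Agent.P156.F.Entry

/-! Second moments: `E |S_00|^2 = 2/(t+1)`. -/

open Matrix MeasureTheory Topology
open scoped ComplexConjugate

namespace Vale.Agent.P156.F

variable {ι : Type} [Fintype ι] [DecidableEq ι]

/-- The vector `e_0 + 2 e_1`. -/
noncomputable def hv (i0 i1 : ι) : ι → ℂ := Pi.single i0 1 + Pi.single i1 2

/-- Householder reflection in the vector `e_0 + 2 e_1`. -/
noncomputable def houseM (i0 i1 : ι) : Matrix ι ι ℂ :=
  1 - (2 / 5 : ℂ) • vecMulVec (hv i0 i1) (hv i0 i1)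

theorem hv_dot {i0 i1 : ι} (hne : i0 ≠ i1) : hv i0 i1 ⬝ᵥ hv i0 i1 = 5 := by
  rw [hv, add_dotProduct, dotProduct_add, dotProduct_add]
  simp only [single_dotProduct, Pi.single_eq_same, Pi.single_eq_of_ne hne,
    Pi.single_eq_of_ne (Ne.symm hne)]
  norm_num

theorem hv_zero {i0 i1 : ι} (hne : i0 ≠ i1) : hv i0 i1 i0 = 1 := by
  rw [hv, Pi.add_apply, Pi.single_eq_same, Pi.single_eq_of_ne hne, add_zero]

theorem hv_one {i0 i1 : ι} (hne : i0 ≠ i1) : hv i0 i1 i1 = 2 := by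
  rw [hv, Pi.add_apply, Pi.single_eq_same, Pi.single_eq_of_ne (Ne.symm hne), zero_add]

theorem hv_other {i0 i1 i : ι} (h0 : i ≠ i0) (h1 : i ≠ i1) : hv i0 i1 i = 0 := by
  rw [hv, Pi.add_apply, Pi.single_eq_of_ne h0, Pi.single_eq_of_ne h1, add_zero]

theorem houseM_transpose (i0 i1 : ι) : (houseM i0 i1)ᵀ = houseM i0 i1 := by
  rw [houseM, transpose_sub, transpose_one, transpose_smul, transpose_vecMulVec]

theorem houseM_star (i0 i1 : ι) : star (houseM i0 i1) = houseM i0 i1 := by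
  ext i j
  rw [star_apply, houseM]
  simp only [Matrix.sub_apply, Matrix.smul_apply, vecMulVec_apply, smul_eq_mul, one_apply,
    hv, Pi.add_apply, Pi.single_apply]
  rw [show (if j = i then (1 : ℂ) else 0) = if i = j then 1 else 0 from by
    simp only [eq_comm]]
  by_cases h1 : i = j <;> by_cases h2 : i = i0 <;> by_cases h3 : i = i1 <;>
    by_cases h4 : j = i0 <;> by_cases h5 : j = i1 <;> simp_all

theorem houseM_mul_self {i0 i1 : ι} (hne : i0 ≠ i1) : houseM i0 i1 * houseM i0 i1 = 1 := by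
  have h : vecMulVec (hv i0 i1) (hv i0 i1) * vecMulVec (hv i0 i1) (hv i0 i1) =
      (5 : ℂ) • vecMulVec (hv i0 i1) (hv i0 i1) := by
    rw [vecMulVec_mul_vecMulVec, hv_dot hne]
    ext i j
    simp [vecMulVec_apply]
    ring
  rw [houseM]
  simp only [sub_mul, mul_sub, Matrix.one_mul, Matrix.mul_one, Matrix.smul_mul, Matrix.mul_smul, h,
    smul_smul]
  ext i j
  simp only [Matrix.sub_apply, Matrix.smul_apply, smul_eq_mul]
  ring

noncomputable def house {i0 i1 : ι} (hne : i0 ≠ i1) : unitaryGroup ι ℂ :=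
  ⟨houseM i0 i1, by
    rw [mem_unitaryGroup_iff, houseM_star]
    exact houseM_mul_self hne⟩

theorem isReal_house {i0 i1 : ι} (hne : i0 ≠ i1) : IsReal (house hne) := by
  intro i j
  have h := congrFun (congrFun (houseM_star i0 i1) j) i
  have h2 := congrFun (congrFun (houseM_transpose i0 i1) i) j
  rw [star_apply, RCLike.star_def] at h
  rw [transpose_apply] at h2
  rw [← h2, Complex.conj_eq_iff_im] at h
  change (houseM i0 i1 i j).im = 0
  rw [← h2]
  rw [h2] at h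
  rw [h2]
  exact h

theorem house_smul_apply {i0 i1 : ι} (hne : i0 ≠ i1) (S : SymU ι) (a b : ι) :
    (house hne • S : SymU ι).1 a b = S.1 a b
      - (2 / 5 : ℂ) * hv i0 i1 a * (S.1 i0 b + 2 * S.1 i1 b)
      - (2 / 5 : ℂ) * hv i0 i1 b * (S.1 a i0 + 2 * S.1 a i1)
      + (4 / 25 : ℂ) * hv i0 i1 a * hv i0 i1 b *
        (S.1 i0 i0 + 2 * S.1 i0 i1 + 2 * S.1 i1 i0 + 4 * S.1 i1 i1) := by
  change (houseM i0 i1 * S.1 * (houseM i0 i1)ᵀ) a b = _
  rw [houseM_transpose]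
  have hvS : ∀ j, (hv i0 i1 ᵥ* S.1) j = S.1 i0 j + 2 * S.1 i1 j := by
    intro j
    rw [hv, add_vecMul, Pi.add_apply, single_vecMul, single_vecMul]
    simp
  have hSv : ∀ i, (S.1 *ᵥ hv i0 i1) i = S.1 i i0 + 2 * S.1 i i1 := by
    intro i
    rw [hv, mulVec_add, Pi.add_apply, mulVec_single, mulVec_single]
    simp
    ring
  have h1 : houseM i0 i1 * S.1 = S.1 - (2 / 5 : ℂ) • vecMulVec (hv i0 i1) (hv i0 i1 ᵥ* S.1) := by
    rw [houseM, sub_mul, Matrix.one_mul, Matrix.smul_mul, vecMulVec_mul]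
  rw [h1, houseM, mul_sub, Matrix.mul_one, Matrix.mul_smul, mul_vecMulVec]
  simp only [Matrix.sub_apply, Matrix.smul_apply, vecMulVec_apply, smul_eq_mul, sub_mulVec,
    smul_mulVec, Pi.sub_apply, Pi.smul_apply, vecMulVec_mulVec]
  have h2 : (hv i0 i1 ᵥ* S.1) ⬝ᵥ hv i0 i1 = S.1 i0 i0 + 2 * S.1 i0 i1 + 2 * S.1 i1 i0 +
      4 * S.1 i1 i1 := by
    rw [hv, dotProduct_add, dotProduct_single, dotProduct_single, ← hv, hvS, hvS]
    ring
  rw [h2, hvS, hSv]
  simp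
  ring

theorem integrable_of_continuous {μ : Measure (SymU ι)} [IsFiniteMeasure μ] {E : Type*}
    [NormedAddCommGroup E] {f : SymU ι → E} (hf : Continuous f) : Integrable f μ :=
  hf.integrable_of_hasCompactSupport (HasCompactSupport.of_compactSpace f)

theorem integral_add4 {Ω : Type*} [MeasurableSpace Ω] {μ : Measure Ω} {f1 f2 f3 f4 : Ω → ℝ}
    (h1 : Integrable f1 μ) (h2 : Integrable f2 μ) (h3 : Integrable f3 μ) (h4 : Integrable f4 μ) :
    ∫ x, (f1 x + f2 x + (f3 x + f4 x)) ∂μ =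
      (∫ x, f1 x ∂μ) + (∫ x, f2 x ∂μ) + ((∫ x, f3 x ∂μ) + (∫ x, f4 x ∂μ)) := by
  rw [integral_add (f := fun x => f1 x + f2 x) (g := fun x => f3 x + f4 x) (h1.add h2)
    (h3.add h4), integral_add h1 h2, integral_add h3 h4]

theorem integral_add3 {Ω : Type*} [MeasurableSpace Ω] {μ : Measure Ω} {f1 f2 f3 : Ω → ℝ}
    (h1 : Integrable f1 μ) (h2 : Integrable f2 μ) (h3 : Integrable f3 μ) :
    ∫ x, (f1 x + f2 x + f3 x) ∂μ = (∫ x, f1 x ∂μ) + (∫ x, f2 x ∂μ) + (∫ x, f3 x ∂μ) := by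
  rw [integral_add (f := fun x => f1 x + f2 x) (g := f3) (h1.add h2) h3, integral_add h1 h2]

theorem four_sum (α β γ : ℝ) (x y z : ℂ) :
    ‖(α : ℂ) * x + β * y + γ * z‖ ^ 2 +
      ‖(α : ℂ) * (Complex.I * x) + β * (-Complex.I * y) + γ * z‖ ^ 2 +
      (‖(α : ℂ) * (-1 * x) + β * (-1 * y) + γ * z‖ ^ 2 +
      ‖(α : ℂ) * (-Complex.I * x) + β * (Complex.I * y) + γ * z‖ ^ 2) =
      4 * (α ^ 2 * ‖x‖ ^ 2 + β ^ 2 * ‖y‖ ^ 2 + γ ^ 2 * ‖z‖ ^ 2) := by
  simp only [Complex.sq_norm, Complex.normSq_apply, Complex.add_re, Complex.mul_re,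
    Complex.add_im, Complex.mul_im, Complex.ofReal_re, Complex.ofReal_im, Complex.I_re,
    Complex.I_im, Complex.neg_re, Complex.neg_im, Complex.one_re, Complex.one_im]
  ring

theorem continuous_comb (i0 i1 : ι) (α β γ u v : ℂ) : Continuous (fun S : SymU ι =>
    ‖α * (u * S.1 i0 i0) + β * (v * S.1 i1 i1) + γ * S.1 i0 i1‖ ^ 2) :=
  (((continuous_const.mul (continuous_const.mul (continuous_entry i0 i0))).add
    (continuous_const.mul (continuous_const.mul (continuous_entry i1 i1)))).add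
    (continuous_const.mul (continuous_entry i0 i1))).norm.pow 2

theorem comb_step {μ : Measure (SymU ι)} (hμ : DInv μ) {i0 i1 : ι}
    (hne : i0 ≠ i1) (α β γ u v : ℂ) :
    ∫ S, ‖α * (u * Complex.I * S.1 i0 i0) +
      β * (v * (-Complex.I) * S.1 i1 i1) + γ * S.1 i0 i1‖ ^ 2 ∂μ =
      ∫ S, ‖α * (u * S.1 i0 i0) + β * (v * S.1 i1 i1) + γ * S.1 i0 i1‖ ^ 2 ∂μ := by
  obtain ⟨z, hz, hz1⟩ := exists_sqrt (z := Complex.I) (by simp)
  have hz0 : z ≠ 0 := by
    intro h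
    rw [h, norm_zero] at hz1
    exact zero_ne_one hz1
  have hinv := hμ.inv_ph hne hz1
  rw [← hinv.integral (continuous_comb i0 i1 α β γ u v)]
  refine integral_congr_ae (Filter.Eventually.of_forall fun S => ?_)
  simp only [diagU_smul_apply, ph_zero, ph_one hne]
  congr 2
  have h1 : z⁻¹ * S.1 i1 i1 * z⁻¹ = (-Complex.I) * S.1 i1 i1 := by
    have : z⁻¹ * z⁻¹ = -Complex.I := by
      rw [← mul_inv, ← pow_two, hz, Complex.inv_I]
    linear_combination (S.1 i1 i1) * this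
  have h2 : z * S.1 i0 i0 * z = Complex.I * S.1 i0 i0 := by
    linear_combination (S.1 i0 i0) * hz
  have h3 : z * S.1 i0 i1 * z⁻¹ = S.1 i0 i1 := by
    field_simp
  rw [h1, h2, h3]
  ring

theorem integral_sq_comb {μ : Measure (SymU ι)} [IsFiniteMeasure μ] (hμ : DInv μ) {i0 i1 : ι}
    (hne : i0 ≠ i1) (α β γ : ℝ) :
    ∫ S, ‖(α : ℂ) * S.1 i0 i0 + β * S.1 i1 i1 + γ * S.1 i0 i1‖ ^ 2 ∂μ =
      α ^ 2 * ∫ S, ‖S.1 i0 i0‖ ^ 2 ∂μ + β ^ 2 * ∫ S, ‖S.1 i1 i1‖ ^ 2 ∂μ +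
      γ ^ 2 * ∫ S, ‖S.1 i0 i1‖ ^ 2 ∂μ := by
  have s1 := comb_step hμ hne α β γ 1 1
  have s2 := comb_step hμ hne α β γ Complex.I (-Complex.I)
  have s3 := comb_step hμ hne α β γ (-1) (-1)
  simp only [one_mul, mul_neg, neg_mul, neg_neg, Complex.I_mul_I] at s1 s2 s3
  have ig : ∀ u v : ℂ, Integrable (fun S : SymU ι =>
      ‖(α : ℂ) * (u * S.1 i0 i0) + β * (v * S.1 i1 i1) + γ * S.1 i0 i1‖ ^ 2) μ :=
    fun u v => integrable_of_continuous (continuous_comb i0 i1 _ _ _ u v)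
  have i1' := ig 1 1
  have i2' := ig Complex.I (-Complex.I)
  have i3' := ig (-1) (-1)
  have i4' := ig (-Complex.I) Complex.I
  simp only [one_mul] at i1'
  have hX : Integrable (fun S : SymU ι => α ^ 2 * ‖S.1 i0 i0‖ ^ 2) μ :=
    integrable_of_continuous (continuous_const.mul ((continuous_entry _ _).norm.pow 2))
  have hY : Integrable (fun S : SymU ι => β ^ 2 * ‖S.1 i1 i1‖ ^ 2) μ :=
    integrable_of_continuous (continuous_const.mul ((continuous_entry _ _).norm.pow 2))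
  have hZ : Integrable (fun S : SymU ι => γ ^ 2 * ‖S.1 i0 i1‖ ^ 2) μ :=
    integrable_of_continuous (continuous_const.mul ((continuous_entry _ _).norm.pow 2))
  have hsum := integral_congr_ae (μ := μ) (Filter.Eventually.of_forall
    (fun S : SymU ι => four_sum α β γ (S.1 i0 i0) (S.1 i1 i1) (S.1 i0 i1)))
  rw [integral_add4 i1' i2' i3' i4', integral_const_mul, integral_add3 hX hY hZ,
    integral_const_mul, integral_const_mul, integral_const_mul] at hsum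
  simp only [one_mul, mul_neg, neg_mul, neg_neg] at hsum
  linarith

/-- `E |S_01|² = E |S_00|² / 2`. -/
theorem second_pair {μ : Measure (SymU ι)} [IsFiniteMeasure μ] (hO : OInv μ) (hD : DInv μ)
    {i0 i1 : ι} (hne : i0 ≠ i1) :
    ∫ S, ‖S.1 i0 i1‖ ^ 2 ∂μ = (∫ S, ‖S.1 i0 i0‖ ^ 2 ∂μ) / 2 := by
  have hsym : ∀ S : SymU ι, S.1 i1 i0 = S.1 i0 i1 := fun S => congrFun (congrFun S.2.2 i0) i1
  have c0 : Continuous (fun S : SymU ι => ‖S.1 i0 i0‖ ^ 2) :=
    (continuous_entry _ _).norm.pow 2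
  have c1 : Continuous (fun S : SymU ι => ‖S.1 i1 i1‖ ^ 2) :=
    (continuous_entry _ _).norm.pow 2
  have h0 := (hO (house hne) (isReal_house hne)).integral c0
  have h1 := (hO (house hne) (isReal_house hne)).integral c1
  have e0 : ∀ S : SymU ι, (house hne • S : SymU ι).1 i0 i0 =
      ((9 / 25 : ℝ) : ℂ) * S.1 i0 i0 + ((16 / 25 : ℝ) : ℂ) * S.1 i1 i1 +
      ((-24 / 25 : ℝ) : ℂ) * S.1 i0 i1 := by
    intro S
    rw [house_smul_apply, hv_zero hne, hsym]
    push_cast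
    ring
  have e1 : ∀ S : SymU ι, (house hne • S : SymU ι).1 i1 i1 =
      ((16 / 25 : ℝ) : ℂ) * S.1 i0 i0 + ((9 / 25 : ℝ) : ℂ) * S.1 i1 i1 +
      ((24 / 25 : ℝ) : ℂ) * S.1 i0 i1 := by
    intro S
    rw [house_smul_apply, hv_one hne, hsym]
    push_cast
    ring
  simp only [e0] at h0
  simp only [e1] at h1
  rw [integral_sq_comb hD hne] at h0 h1
  linarith

/-- `E |S_00|² = 2/(t+1)`. -/
theorem second_moment {μ : Measure (SymU ι)} [IsProbabilityMeasure μ] (hO : OInv μ)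
    (hD : DInv μ) (i0 : ι) :
    ∫ S, ‖S.1 i0 i0‖ ^ 2 ∂μ = 2 / (Fintype.card ι + 1) := by
  classical
  have hrow : ∀ S : SymU ι, ∑ j, ‖S.1 i0 j‖ ^ 2 = 1 := by
    intro S
    have h := congrFun (congrFun (mem_unitaryGroup_iff.mp S.2.1) i0) i0
    rw [mul_apply, one_apply_eq] at h
    have h2 : ∀ j, S.1 i0 j * (star S.1) j i0 = ((‖S.1 i0 j‖ ^ 2 : ℝ) : ℂ) := by
      intro j
      rw [star_apply, RCLike.star_def, Complex.mul_conj, Complex.normSq_eq_norm_sq]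
    simp only [h2, ← Complex.ofReal_sum] at h
    exact_mod_cast h
  have hint : ∀ j, Integrable (fun S : SymU ι => ‖S.1 i0 j‖ ^ 2) μ := fun j =>
    integrable_of_continuous ((continuous_entry _ _).norm.pow 2)
  have h1 : ∑ j, ∫ S, ‖S.1 i0 j‖ ^ 2 ∂μ = 1 := by
    rw [← integral_finsetSum _ fun j _ => hint j]
    simp only [hrow, integral_const, probReal_univ, one_smul]
  rw [← Finset.add_sum_erase _ _ (Finset.mem_univ i0)] at h1
  have h2 : ∑ j ∈ Finset.univ.erase i0, ∫ S, ‖S.1 i0 j‖ ^ 2 ∂μ =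
      ∑ j ∈ Finset.univ.erase i0, (∫ S, ‖S.1 i0 i0‖ ^ 2 ∂μ) / 2 :=
    Finset.sum_congr rfl fun j hj => second_pair hO hD (Finset.ne_of_mem_erase hj).symm
  rw [h2, Finset.sum_const, Finset.card_erase_of_mem (Finset.mem_univ i0), Finset.card_univ,
    nsmul_eq_mul] at h1
  have hc : 1 ≤ Fintype.card ι := Fintype.card_pos_iff.mpr ⟨i0⟩
  push_cast [Nat.cast_sub hc] at h1
  have hpos : (0 : ℝ) < Fintype.card ι + 1 := by positivity
  field_simp
  linarith

end Vale.Agent.P156.F
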