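import Vale.Agent.P156.F.Factor
import Vale.Agent.P156.F.Clos

/-! Uniqueness of compatible families of invariant laws (F3). -/

open Matrix MeasureTheory Topology
open scoped ComplexConjugate

namespace Vale.Agent.P156.F

variable {ι : Type} [Fintype ι] [DecidableEq ι]

/-! ### The determinant under a closing -/

theorem norm_det_pow_map_clos {t : ℕ} {μ : Measure (SymU (Fin (t + 2)))} [IsProbabilityMeasure μ]
    (hO : OInv μ) (hD : DInv μ) {ν : ℂ} (hν : ‖ν‖ = 1) (m : ℕ) {c : ℝ}
    (hc : ∀ x : ℝ, 0 ≤ x → x ≤ 1 → |(Qp m).eval x| ≤ 1 - c * x) :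
    ‖∫ S, S.1.det ^ (m + 1) ∂(μ.map (clos ν))‖ ≤
      (1 - c * (2 / (t + 3))) * ‖∫ S, S.1.det ^ (m + 1) ∂μ‖ := by
  have hν0 : ν ≠ 0 := by
    intro h
    rw [h, norm_zero] at hν
    exact zero_ne_one hν
  have hne : (0 : Fin (t + 2)) ≠ 1 := by
    intro h
    have := congrArg Fin.val h
    simp at this
  have hSU : SUInv μ := SUInv.of hO hD
  -- the test function
  set P : ℂ → ℂ := fun z => ((1 - conj (ν * z)) / (1 - ν * z)) ^ (m + 1) with hP
  have hPm : Measurable P := (measurable_factor (m + 1)).comp (measurable_const_mul ν)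
  have hPb : ∀ z, ‖P z‖ ≤ 1 := fun z => norm_factor_le (ν * z) (m + 1)
  obtain ⟨C, hC⟩ := exists_entry_const hne hPm hPb
  have hu : Measurable (fun z : ℂ => z ^ (m + 1)) := (measurable_id).pow_const _
  have hub : ∀ z : ℂ, ‖z‖ = 1 → ‖z ^ (m + 1)‖ ≤ 1 := by
    intro z hz
    rw [norm_pow, hz, one_pow]
  have h1 := hC μ hSU hu hub
  have h2 := hC μ hSU (u := fun _ => 1) measurable_const (B := 1) (fun z _ => by simp)
  simp only [one_mul, integral_const, probReal_univ, one_smul] at h2
  have hCb : ‖C‖ ≤ 1 - c * (2 / (t + 3)) := by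
    rw [← h2]
    simp only [hP]
    have h3 := integral_entry_rot hD hne hν (measurable_factor (m + 1))
    rw [h3]
    refine (norm_integral_factor_le hD hne m hc).trans ?_
    rw [second_moment hO hD, Fintype.card_fin]
    push_cast
    rw [show (t : ℝ) + 2 + 1 = t + 3 by ring]
  have hdm : Measurable (fun S : SymU (Fin (t + 1)) => S.1.det ^ (m + 1)) :=
    (continuous_det_symU.pow (m + 1)).measurable
  have h4 : ∫ S, S.1.det ^ (m + 1) ∂(μ.map (clos ν)) =
      (-ν) ^ (m + 1) * ((∫ S, S.1.det ^ (m + 1) ∂μ) * C) := by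
    rw [integral_map (measurable_clos ν).aemeasurable hdm.aestronglyMeasurable, ← h1,
      ← integral_const_mul]
    have hae : ∀ᵐ S ∂μ, S.1 0 0 ≠ ν⁻¹ := by
      rw [ae_iff]
      simp only [ne_eq, not_not]
      exact measure_entry_eq hD hne (inv_ne_zero hν0)
    refine integral_congr_ae ?_
    filter_upwards [hae] with S hS
    rw [coe_clos hν hS, det_closM hν S.2.1 hS]
    simp only [hP]
    rw [mul_pow, mul_pow]
    ring
  rw [h4, norm_mul, norm_pow, norm_neg, hν, one_pow, one_mul, norm_mul, mul_comm]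
  exact mul_le_mul_of_nonneg_right hCb (norm_nonneg _)

/-- Vanishing of the moments of the determinant. -/
theorem det_moment_eq_zero {t0 : ℕ} (ht0 : 1 ≤ t0) {μ : ∀ t, Measure (SymU (Fin t))}
    (hprob : ∀ t, t0 ≤ t → IsProbabilityMeasure (μ t))
    (hO : ∀ t, t0 ≤ t → OInv (μ t)) (hD : ∀ t, t0 ≤ t → DInv (μ t)) {ν : ℕ → ℂ}
    (hν : ∀ t, ‖ν t‖ = 1) (hclos : ∀ t, t0 ≤ t → μ t = (μ (t + 1)).map (clos (ν t)))
    {t : ℕ} (ht : t0 ≤ t) (m : ℕ) : ∫ S, S.1.det ^ (m + 1) ∂(μ t) = 0 := by
  obtain ⟨c, hcpos, hc⟩ := exists_Qp_bound m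
  set a : ℕ → ℝ := fun t => ‖∫ S, S.1.det ^ (m + 1) ∂(μ t)‖ with ha
  have ha1 : ∀ t, t0 ≤ t → a t ≤ 1 := by
    intro t ht
    have := hprob t ht
    simp only [ha]
    refine (norm_integral_le_of_norm_le_const (C := 1) (Filter.Eventually.of_forall fun S => ?_)).trans ?_
    · rw [norm_pow, norm_det_symU, one_pow]
    · simp
  have hstep : ∀ t, t0 ≤ t → a t ≤ Real.exp (-(2 * c * (1 / ((t : ℝ) + 2)))) * a (t + 1) := by
    intro t ht
    obtain ⟨s, rfl⟩ : ∃ s, t = s + 1 := ⟨t - 1, by omega⟩
    have := hprob (s + 1 + 1) (by omega)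
    have h := norm_det_pow_map_clos (hO (s + 1 + 1) (by omega)) (hD (s + 1 + 1) (by omega))
      (hν (s + 1)) m hc
    rw [← hclos (s + 1) ht] at h
    refine h.trans ?_
    refine mul_le_mul_of_nonneg_right ?_ (norm_nonneg _)
    have h2 := Real.add_one_le_exp (-(2 * c * (1 / (((s + 1 : ℕ) : ℝ) + 2))))
    have h3 : (((s + 1 : ℕ) : ℝ) + 2) = (s : ℝ) + 3 := by push_cast; ring
    rw [h3] at h2 ⊢
    have h4 : c * (2 / ((s : ℝ) + 3)) = 2 * c * (1 / ((s : ℝ) + 3)) := by ring
    linarith
  have hind : ∀ n t, t0 ≤ t →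
      a t ≤ Real.exp (-(2 * c * ∑ j ∈ Finset.range n, 1 / (((t + 1 + j : ℕ) : ℝ) + 1))) := by
    intro n
    induction n with
    | zero =>
      intro t ht
      simp only [Finset.range_zero, Finset.sum_empty, mul_zero, neg_zero, Real.exp_zero]
      exact ha1 t ht
    | succ n ih =>
      intro t ht
      refine (hstep t ht).trans ?_
      refine (mul_le_mul_of_nonneg_left (ih (t + 1) (by omega)) (Real.exp_pos _).le).trans ?_
      rw [← Real.exp_add]
      apply le_of_eq
      congr 1
      rw [Finset.sum_range_succ']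
      have h5 : ∀ j, (((t + 1 + 1 + j : ℕ) : ℝ) + 1) = (((t + 1 + (j + 1) : ℕ) : ℝ) + 1) := by
        intro j
        push_cast
        ring
      simp only [h5]
      push_cast
      ring
  -- divergence of the harmonic series
  have hdiv : Filter.Tendsto (fun n => ∑ j ∈ Finset.range n, 1 / (((t + 1 + j : ℕ) : ℝ) + 1))
      Filter.atTop Filter.atTop := by
    have h1 : Filter.Tendsto (fun n => ∑ j ∈ Finset.range (t + 1 + n), 1 / ((j : ℝ) + 1))
        Filter.atTop Filter.atTop :=
      Real.tendsto_sum_range_one_div_nat_succ_atTop.comp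
        (Filter.tendsto_atTop_mono (fun n => Nat.le_add_left n (t + 1)) Filter.tendsto_id)
    have h2 : ∀ n, ∑ j ∈ Finset.range (t + 1 + n), 1 / ((j : ℝ) + 1) =
        ∑ j ∈ Finset.range (t + 1), 1 / ((j : ℝ) + 1) +
        ∑ j ∈ Finset.range n, 1 / (((t + 1 + j : ℕ) : ℝ) + 1) := by
      intro n
      rw [Finset.sum_range_add]
    simp only [h2] at h1
    have h3 := Filter.tendsto_atTop_add_const_left Filter.atTop
      (-(∑ j ∈ Finset.range (t + 1), 1 / ((j : ℝ) + 1))) h1
    refine h3.congr fun n => ?_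
    ring
  have hlim : Filter.Tendsto (fun n =>
      Real.exp (-(2 * c * ∑ j ∈ Finset.range n, 1 / (((t + 1 + j : ℕ) : ℝ) + 1))))
      Filter.atTop (𝓝 0) := by
    refine Real.tendsto_exp_neg_atTop_nhds_zero.comp ?_
    exact hdiv.const_mul_atTop (by positivity)
  have hfin : a t ≤ 0 := ge_of_tendsto' hlim fun n => hind n t ht
  exact norm_eq_zero.mp (le_antisymm hfin (norm_nonneg _))

/-! ### Laws on the circle with the same moments -/

theorem continuous_integral_comp {Ω : Type*} [MeasurableSpace Ω] {X : Type*}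
    [TopologicalSpace X] [CompactSpace X] [MeasurableSpace X] [BorelSpace X]
    {μ : Measure Ω} [IsProbabilityMeasure μ] {a : Ω → X} (ha : Measurable a) :
    Continuous (fun ψ : C(X, ℂ) => ∫ x, ψ (a x) ∂μ) := by
  have hint : ∀ ψ : C(X, ℂ), Integrable (fun x => ψ (a x)) μ := by
    intro ψ
    refine Integrable.of_bound (C := ‖ψ‖) ?_ (Filter.Eventually.of_forall fun x => ψ.norm_coe_le_norm _)
    exact (ψ.continuous.measurable.comp ha).aestronglyMeasurable
  refine (LipschitzWith.of_dist_le_mul (K := 1) fun ψ1 ψ2 => ?_).continuous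
  rw [dist_eq_norm, ← integral_sub (hint ψ1) (hint ψ2), NNReal.coe_one, one_mul, dist_eq_norm]
  refine (norm_integral_le_of_norm_le_const (C := ‖ψ1 - ψ2‖)
    (Filter.Eventually.of_forall fun x => ?_)).trans ?_
  · exact (ψ1 - ψ2).norm_coe_le_norm (a x)
  · simp

theorem circle_law_eq {Ω : Type*} [TopologicalSpace Ω] [MeasurableSpace Ω]
    [OpensMeasurableSpace Ω] {μ μ' : Measure Ω}
    [IsProbabilityMeasure μ] [IsProbabilityMeasure μ'] {d : Ω → Circle} (hd : Continuous d)
    (h : ∀ n : ℤ, ∫ x, (((d x) ^ n : Circle) : ℂ) ∂μ = ∫ x, (((d x) ^ n : Circle) : ℂ) ∂μ')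
    (φ : C(Circle, ℂ)) : ∫ x, φ (d x) ∂μ = ∫ x, φ (d x) ∂μ' := by
  have : Fact (0 < (1 : ℝ)) := ⟨one_pos⟩
  set e := AddCircle.homeomorphCircle (T := 1) one_ne_zero with he
  set a : Ω → AddCircle (1 : ℝ) := fun x => e.symm (d x) with ha
  have ham : Measurable a := (e.symm.continuous.comp hd).measurable
  let W : Submodule ℂ C(AddCircle (1 : ℝ), ℂ) :=
    { carrier := {ψ | ∫ x, ψ (a x) ∂μ = ∫ x, ψ (a x) ∂μ'}
      add_mem' := by
        intro ψ1 ψ2 h1 h2
        have hint : ∀ (ρ : Measure Ω) [IsProbabilityMeasure ρ] (ψ : C(AddCircle (1 : ℝ), ℂ)),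
            Integrable (fun x => ψ (a x)) ρ := by
          intro ρ _ ψ
          refine Integrable.of_bound (C := ‖ψ‖) ?_
            (Filter.Eventually.of_forall fun x => ψ.norm_coe_le_norm _)
          exact (ψ.continuous.measurable.comp ham).aestronglyMeasurable
        simp only [Set.mem_ofPred_eq, ContinuousMap.add_apply] at *
        rw [integral_add (hint μ ψ1) (hint μ ψ2), integral_add (hint μ' ψ1) (hint μ' ψ2), h1, h2]
      zero_mem' := by simp
      smul_mem' := by
        intro c ψ h1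
        simp only [Set.mem_ofPred_eq, ContinuousMap.smul_apply, smul_eq_mul] at *
        rw [integral_const_mul, integral_const_mul, h1] }
  have hW : IsClosed (W : Set C(AddCircle (1 : ℝ), ℂ)) :=
    isClosed_eq (continuous_integral_comp ham) (continuous_integral_comp ham)
  have hspan : Submodule.span ℂ (Set.range (@fourier (1 : ℝ))) ≤ W := by
    rw [Submodule.span_le]
    rintro _ ⟨n, rfl⟩
    change ∫ x, fourier n (a x) ∂μ = ∫ x, fourier n (a x) ∂μ'
    have h2 : ∀ x, fourier n (a x) = (((d x) ^ n : Circle) : ℂ) := by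
      intro x
      rw [fourier_apply, AddCircle.toCircle_zsmul]
      congr 2
      rw [← AddCircle.homeomorphCircle_apply one_ne_zero]
      exact e.apply_symm_apply (d x)
    simp only [h2]
    exact h n
  have htop : W = ⊤ := by
    rw [eq_top_iff, ← span_fourier_closure_eq_top]
    exact Submodule.topologicalClosure_minimal _ hspan hW
  have hmem : (φ.comp ⟨e, e.continuous⟩ : C(AddCircle (1 : ℝ), ℂ)) ∈ W := by
    rw [htop]
    exact Submodule.mem_top
  have h3 : ∀ x, (φ.comp ⟨e, e.continuous⟩ : C(AddCircle (1 : ℝ), ℂ)) (a x) = φ (d x) := by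
    intro x
    change φ (e (e.symm (d x))) = φ (d x)
    rw [e.apply_symm_apply]
  have h4 : ∫ x, (φ.comp ⟨e, e.continuous⟩ : C(AddCircle (1 : ℝ), ℂ)) (a x) ∂μ =
    ∫ x, (φ.comp ⟨e, e.continuous⟩ : C(AddCircle (1 : ℝ), ℂ)) (a x) ∂μ' := hmem
  simpa only [h3] using h4

/-- The determinant as a point of the circle. -/
noncomputable def detC (S : SymU ι) : Circle :=
  ⟨S.1.det, mem_sphere_zero_iff_norm.mpr (norm_det_symU S)⟩

theorem continuous_detC : Continuous (detC : SymU ι → Circle) :=
  continuous_det_symU.subtype_mk _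

/-- A section of the determinant. -/
noncomputable def sec (i0 : ι) (z : Circle) : SymU ι :=
  ⟨diagonal (Function.update (fun _ => (1 : ℂ)) i0 z), by
    have h : ∀ i, ‖Function.update (fun _ : ι => (1 : ℂ)) i0 z i‖ = 1 := by
      intro i
      by_cases hi : i = i0
      · subst hi; rw [Function.update_self]; exact Circle.norm_coe z
      · rw [Function.update_of_ne hi]; simp
    exact ⟨(diagU _ h).2, diagonal_transpose _⟩⟩

theorem det_sec (i0 : ι) (z : Circle) : (sec i0 z).1.det = z := by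
  change (diagonal _).det = _
  rw [det_diagonal, Finset.prod_update_of_mem (Finset.mem_univ i0)]
  simp

theorem continuous_sec (i0 : ι) : Continuous (sec i0 : Circle → SymU ι) := by
  refine Continuous.subtype_mk ?_ _
  refine Continuous.matrix_diagonal ?_
  exact continuous_const.update i0 continuous_subtype_val

theorem continuous_avg {f : SymU ι → ℂ} (hf : Continuous f) : Continuous (avg f) := by
  have h : Continuous (Function.uncurry fun (S : SymU ι) (g : SUG ι) => f (g.1 • S)) := by
    have h1 : Continuous (fun p : SymU ι × SUG ι => p.2.1 • p.1) :=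
      (continuous_subtype_val.comp continuous_snd).smul continuous_fst
    exact hf.comp h1
  have h2 := continuous_parametric_integral_of_continuous (μ := haarSU ι) h isCompact_univ
  rw [Measure.restrict_univ] at h2
  exact h2

/-- Two invariant laws with the same moments of the determinant coincide. -/
theorem eq_of_det_moments {μ μ' : Measure (SymU ι)} [IsProbabilityMeasure μ]
    [IsProbabilityMeasure μ'] (hμ : SUInv μ) (hμ' : SUInv μ')
    (h : ∀ m : ℕ, ∫ S, S.1.det ^ (m + 1) ∂μ = ∫ S, S.1.det ^ (m + 1) ∂μ') : μ = μ' := by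
  rcases isEmpty_or_nonempty ι with hι | ⟨⟨i0⟩⟩
  · have hsub : Subsingleton (SymU ι) := ⟨fun S T => by
      apply Subtype.ext
      ext i
      exact isEmptyElim i⟩
    refine Measure.ext fun s hs => ?_
    rcases s.eq_empty_or_nonempty with rfl | ⟨x, hx⟩
    · simp
    · have : s = Set.univ := by
        ext y
        simp only [Set.mem_univ, iff_true]
        rw [Subsingleton.elim y x]
        exact hx
      rw [this, measure_univ, measure_univ]
  have : Nonempty ι := ⟨i0⟩
  have hall : ∀ n : ℤ, ∫ S, (((detC S) ^ n : Circle) : ℂ) ∂μ =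
      ∫ S, (((detC S) ^ n : Circle) : ℂ) ∂μ' := by
    have hpos : ∀ m : ℕ, ∫ S, (((detC S) ^ m : Circle) : ℂ) ∂μ =
        ∫ S, (((detC S) ^ m : Circle) : ℂ) ∂μ' := by
      intro m
      rcases m with _ | m
      · simp
      · have h0 : ∀ S : SymU ι, (((detC S) ^ (m + 1) : Circle) : ℂ) = S.1.det ^ (m + 1) := by
          intro S
          rw [Circle.coe_pow]
          rfl
        simp only [h0]
        exact h m
    intro n
    rcases n with m | m
    · simpa using hpos m
    · have h1 : ∀ S : SymU ι, (((detC S) ^ (Int.negSucc m) : Circle) : ℂ) =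
          conj (((detC S) ^ (m + 1) : Circle) : ℂ) := by
        intro S
        rw [zpow_negSucc, Circle.coe_inv_eq_conj]
      simp only [h1, integral_conj]
      rw [hpos]
  have key : ∀ f : SymU ι → ℂ, Continuous f → ∫ S, f S ∂μ = ∫ S, f S ∂μ' := by
    intro f hf
    obtain ⟨C, hC⟩ : ∃ C : ℝ, ∀ S, ‖f S‖ ≤ C := by
      obtain ⟨C, hC⟩ := isCompact_univ.exists_bound_of_continuousOn (f := f) hf.continuousOn
      exact ⟨C, fun S => hC S (Set.mem_univ S)⟩
    rw [← integral_avg hμ hf.measurable hC, ← integral_avg hμ' hf.measurable hC]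
    obtain ⟨φ, hφ⟩ : ∃ φ : C(Circle, ℂ), ∀ S : SymU ι, avg f S = φ (detC S) := by
      refine ⟨⟨fun z => avg f (sec i0 z), (continuous_avg hf).comp (continuous_sec i0)⟩, ?_⟩
      intro S
      refine avg_eq_of_det f ?_
      rw [det_sec]
      rfl
    simp only [hφ]
    exact circle_law_eq continuous_detC hall φ
  refine ext_of_forall_integral_eq_of_IsFiniteMeasure fun f => ?_
  have h2 := key (fun S => ((f S : ℝ) : ℂ)) (Complex.continuous_ofReal.comp f.continuous)
  rw [integral_complex_ofReal, integral_complex_ofReal] at h2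
  exact_mod_cast h2

/-- **Uniqueness theorem** (F3). Two families of probability laws on symmetric unitary matrices
of all sizes `t ≥ t0`, invariant under the real orthogonal group and under diagonal unitary
matrices of determinant one, and compatible under the closing of a channel (with arbitrary
phases, which may depend on the size and on the family), coincide. -/
theorem F_unique (t0 : ℕ) (μ μ' : ∀ t, Measure (SymU (Fin t)))
    (hprob : ∀ t, t0 ≤ t → IsProbabilityMeasure (μ t))
    (hprob' : ∀ t, t0 ≤ t → IsProbabilityMeasure (μ' t))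
    (hO : ∀ t, t0 ≤ t → OInv (μ t)) (hD : ∀ t, t0 ≤ t → DInv (μ t))
    (hO' : ∀ t, t0 ≤ t → OInv (μ' t)) (hD' : ∀ t, t0 ≤ t → DInv (μ' t))
    (ν ν' : ℕ → ℂ) (hν : ∀ t, ‖ν t‖ = 1) (hν' : ∀ t, ‖ν' t‖ = 1)
    (hclos : ∀ t, t0 ≤ t → μ t = (μ (t + 1)).map (clos (ν t)))
    (hclos' : ∀ t, t0 ≤ t → μ' t = (μ' (t + 1)).map (clos (ν' t)))
    {t : ℕ} (ht : t0 ≤ t) : μ t = μ' t := by
  have h1 := hprob t ht
  have h2 := hprob' t ht
  refine eq_of_det_moments (SUInv.of (hO t ht) (hD t ht)) (SUInv.of (hO' t ht) (hD' t ht)) ?_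
  intro m
  rcases Nat.eq_zero_or_pos t with rfl | htpos
  · have h3 : ∀ S : SymU (Fin 0), S.1.det ^ (m + 1) = 1 := by
      intro S
      rw [det_isEmpty, one_pow]
    simp only [h3]
    simp
  · have hm : ∀ s, max t0 1 ≤ s → t0 ≤ s := fun s hs => (le_max_left _ _).trans hs
    rw [det_moment_eq_zero (t0 := max t0 1) (le_max_right _ _) (fun s hs => hprob s (hm s hs))
      (fun s hs => hO s (hm s hs)) (fun s hs => hD s (hm s hs)) hν
      (fun s hs => hclos s (hm s hs)) (max_le ht htpos) m,
      det_moment_eq_zero (t0 := max t0 1) (le_max_right _ _) (fun s hs => hprob' s (hm s hs))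
      (fun s hs => hO' s (hm s hs)) (fun s hs => hD' s (hm s hs)) hν'
      (fun s hs => hclos' s (hm s hs)) (max_le ht htpos) m]

end Vale.Agent.P156.F
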